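import Vale.Agent.P167.N.H365.Q.NearB
import Vale.Agent.P167.H365.Q.Red

/-!
# P167, `0 < q < 1`, block Q-NRED: universality of the local part of the stagger

The mean of the stagger of a functional which is natural near the flat side is a universal multiple of
the mass of the functional, plus the contribution of the large pieces, up to a small error.
-/

set_option autoImplicit false

namespace Vale.Agent.P167.N.H365.NQ

open Vale.Agent.P167.H365.NQ Vale.Agent.P167.H365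

open Finset Vale.Agent.P167.BR Vale.Agent.P167.FK Vale.Agent.P167.FKA

open Vale.Agent.P167.H562.QM (FltQ)

open Vale.Agent.P167.H166 (bxx mem_bxx)

variable {Q : ℝ} {D : Finset (ℤ × ℤ)} {η : Cfg} {p : ℤ × ℤ} {K R m x d : ℤ} {ω : Cfg}
  {w w' : Finset Ed → ℝ} {t : Fin 3 → ℝ} {M : ℝ} {Cm C2 γ Ce : ℝ}

/-- **The error of the near part of the stagger.** -/
theorem stag_er (S : Cs Q K Cm C2 γ Ce) (t : Fin 3 → ℝ) : ∃ C : ℝ, 0 ≤ C ∧
    ∀ (R : ℤ) (D : Finset (ℤ × ℤ)) (η : Cfg) (p u : ℤ × ℤ)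
      (X Y : Cfg → ℝ) (M : ℝ), XY Q K R D η p u X Y M → u.2 = 0 → ∀ m x : ℤ, 32 ≤ m →
      4 * m ≤ R → |x - u.1| ≤ m / 4 →
    |er Q D η (HR K R u) X (NS t D p u m x)| ≤ C * M * (((1 : ℝ) / R) * ((m : ℝ) / R) ^ γ) := by
  classical
  have hγ := S.γ0
  have hQ0 := S.hQ0
  obtain ⟨Cf, hCf, hfar⟩ := far_rings S t
  obtain ⟨Cs', hCs', hbs⟩ := base_sQ S t
  refine ⟨Cf + Cs', by positivity, ?_⟩
  intro R D η p u X Y M h hu2 m x hm hmR hx
  have hM := h.M0 hQ0
  have hL8 := h.gq.geo.L8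
  have hR0 : (0 : ℝ) < R := by exact_mod_cast (by omega : 0 < R)
  have hm0 : (1 : ℝ) ≤ m := by exact_mod_cast (by omega : 1 ≤ m)
  obtain ⟨T1, hT1⟩ : ∃ T1 : ℝ, T1 = ((1 : ℝ) / R) * ((m : ℝ) / R) ^ γ := ⟨_, rfl⟩
  have hT10 : 0 ≤ T1 := by rw [hT1]; positivity
  have h1T : ((1 : ℝ) / R) ^ (1 + γ) ≤ T1 := by
    rw [hT1, pow_frac (by positivity) hR0 hγ]
    refine mul_le_mul_of_nonneg_left ?_ (by positivity)
    exact rpow_frac_mono (by positivity) hm0 hR0 hγ.le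
  have hu : ((x, u.2) : ℤ × ℤ) = (x, 0) := by rw [hu2]
  have hx' := abs_le.1 hx
  have hsit : ∀ D' p', Geo K R D' p' u → (x, (0 : ℤ)) ∈ D' := by
    intro D' p' E'
    refine (E'.fl _ ?_).2 (by simp only; omega)
    rw [nm_le']
    simp only [Prod.fst_sub, Prod.snd_sub]
    omega
  have hxR : nm (((x, 0) : ℤ × ℤ) - u) ≤ R / 2 := by
    rw [nm_le']
    simp only [Prod.fst_sub, Prod.snd_sub]
    omega
  have b1 := hfar R D η p u X Y M h m x 1 (fun D p => sx D p x)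
      le_rfl (by omega) hmR hx (fun D p A => abs_sx D p x A)
      (fun D' p' E' ω A hA hg => by
        rw [hu]
        obtain ⟨e, he, h1, h2⟩ := sx_vis hA (hsit D' p' E') hg
        exact ⟨e, he, h1, by omega⟩)
      (intr_sx x)
  have b2 := hbs R D η p u X Y M h x (by omega) (by rw [hu]; exact hxR)
  rw [hu] at b1 b2
  unfold NS
  rw [mul_one] at b1
  rw [← hT1]
  generalize er Q D η (HR K R u) X (SP t D p (Nr D u m) (sx D p x)) = a1 at b1 ⊢
  generalize er Q D η (HR K R u) X (SP t D p (Nr D (x, 0) 8) (sx D p x)) = a2 at b1 b2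
  have b2' : |a2| ≤ Cs' * M * T1 := b2.trans (mul_le_mul_of_nonneg_left h1T (by positivity))
  have b1' : |a1 - a2| ≤ Cf * M * T1 := by
    refine b1.trans (le_of_eq ?_)
    rw [hT1]; push_cast; ring
  calc |a1| = |(a1 - a2) + a2| := by congr 1; ring
    _ ≤ Cf * M * T1 + Cs' * M * T1 := (abs_add_le _ _).trans (add_le_add b1' b2')
    _ = _ := by ring

/-- The universal local mean of the stagger at `x`, in the cell with center `(v, 0)`. -/
noncomputable def sC (Q : ℝ) (t : Fin 3 → ℝ) (K R m v x : ℤ) : ℝ :=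
  Ex Q (HR K R (v, 0)) eta0 (NS t (HR K R (v, 0)) (pR K R (v, 0)) (v, 0) m x)

/-- The reference mean does not depend on the domain. -/
theorem sC_eq (E : Geo K R D p (d, 0)) (hm : m ≤ R) (h0 : 0 ≤ m) :
    Ex Q (HR K R (d, 0)) eta0 (NS t D p (d, 0) m x) = sC Q t K R m d x := by
  have O2 : Obs K R (d, 0) (d, 0) m (fun D => Nr D (d, 0) m) (fun D p => sx D p x) :=
    { near := fun D A h => h
      same := fun D1 D2 A h => h.nr
      intr := intr_sx x }
  have hnn := nm_self ((d, 0) : ℤ × ℤ)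
  have e2 : NS t D p (d, 0) m x = NS t (HR K R (d, 0)) (pR K R (d, 0)) (d, 0) m x :=
    O2.eqH E (by omega)
  unfold sC
  rw [e2]

/-- **Universality of the local part of the stagger.** -/
theorem stag_cell (S : Cs Q K Cm C2 γ Ce) (t : Fin 3 → ℝ) : ∃ C : ℝ, 0 ≤ C ∧
    ∀ (R : ℤ) (D : Finset (ℤ × ℤ)) (η : Cfg) (p : ℤ × ℤ) (w w' : Finset Ed → ℝ) (M : ℝ) (v : ℤ),
      EnvQ Q t K R D η p w w' M (v, 0) → ∀ m x : ℤ, 32 ≤ m → 4 * m ≤ R → |x - v| ≤ m / 4 →
    |Ex Q D η (SW D p w w' x) - Ex Q D η (OF D (v, 0) m w w' (sx D p x)) -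
        sC Q t K R m v x * Ex Q D η (XW D w)| ≤
      C * M * (((1 : ℝ) / R) * ((m : ℝ) / R) ^ γ) := by
  classical
  obtain ⟨C, hC, hst⟩ := stag_er S t
  refine ⟨C, hC, ?_⟩
  intro R D η p w w' M v E m x hm hmR hx
  obtain ⟨Y, hYI, hXY, hTY, hYM⟩ := E.Y
  have hR1 := E.R1
  have hL8 := E.geo.L8
  have hXYs : XY Q K R D η p (v, 0) (XW D w) Y M :=
    { gq := E.gq
      hX := fun y hy hy2 L hL => E.oneCr hy hy2 hL
      hY := hYI
      hXY := hXY
      hM := hYM }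
  have b1 := hst R D η p (v, 0) (XW D w) Y M hXYs rfl m x hm hmR hx
  have hx' := abs_le.1 hx
  have hxD : (x, (0 : ℤ)) ∈ D := by
    refine (E.geo.fl _ ?_).2 (by simp only; omega)
    rw [nm_le']
    simp only [Prod.fst_sub, Prod.snd_sub]
    omega
  have hfe : fe x ∈ eds D := by
    unfold fe
    rw [mem_eds_inr, show (-1 : ℤ) + 1 = 0 by norm_num]
    exact Or.inr hxD
  have hv0 : nm (((v, 0) : ℤ × ℤ) - (v, 0)) ≤ R := by rw [nm_self]; omega
  have hN : Nat1 t D p w w' (v, 0) 1 m := E.nat1 hv0 rfl (by omega) (by omega)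
  have e2 : Ex Q D η (SW D p w w' x) = Ex Q D η (fun ω => NS t D p (v, 0) m x ω * XW D w ω) +
        Ex Q D η (OF D (v, 0) m w w' (sx D p x)) := by
    rw [← Ex_add]
    refine Ex_congr fun S _ => ?_
    rw [SW_eq hfe, OB_split hN]
    unfold NS
    ring
  have e3 := sC_eq (Q := Q) (t := t) (x := x) E.geo (m := m) (by omega) (by omega)
  unfold er at b1
  rw [e3] at b1
  rw [e2]
  convert b1 using 2
  ring

/-- The large pieces through a given side. -/
theorem of_small {C2 : ℝ} (hQ : 0 < Q) (hC2 : 0 < C2) (h2 : I2c Q C2) {v : ℤ}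
    (E : EnvQ Q t K R D η p w w' M (v, 0)) (hm1 : 8 ≤ m) (hmR : 4 * m ≤ R) (hx : |x - v| ≤ m / 4) :
    Ex Q D η (fun ω => |OF D (v, 0) m w w' (sx D p x) ω|) ≤ 4 * C2 * M * (1 / (m : ℝ)) := by
  classical
  obtain ⟨Y, hYI, hXY, hTY, hYM⟩ := E.Y
  have hY0 : ∀ ω, 0 ≤ Y ω := fun ω => (abs_nonneg _).trans (hXY ω)
  have hL8 := E.geo.L8
  have hx' := abs_le.1 hx
  have hM := E.M0 hQ
  have hm0 : (0 : ℝ) < m := by exact_mod_cast (by omega : 0 < m)
  have hxv : nm (((x, 0) : ℤ × ℤ) - (v, 0)) ≤ m / 4 := by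
    rw [nm_le']
    simp only [Prod.fst_sub, Prod.snd_sub]
    omega
  have hflt : FltQ D η (x, 0) (m / 2) false false := flt_shift E.fl (by omega) rfl
  have hF : Fl D (x, 0) (m / 2 + 1) := E.geo.fl' (by omega) rfl (by omega)
  have hxD : (x, (0 : ℤ)) ∈ D := (hF (x, 0) (by rw [nm_self]; omega)).2 le_rfl
  -- the pointwise bound
  have key : ∀ ω, |OF D (v, 0) m w w' (sx D p x) ω| ≤ Y ω * i2 (x, 0) 1 (m / 2) ω := by
    intro ω
    by_cases h0 : OF D (v, 0) m w w' (sx D p x) ω = 0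
    · rw [h0, abs_zero]
      exact mul_nonneg (hY0 ω) (i2_nonneg _ _ _ _)
    · obtain ⟨A, hA, hA0⟩ := exists_ne_zero_of_sum_ne_zero h0
      rw [mem_filter] at hA
      have hs : sx D p x A ≠ 0 := fun h => hA0 (by rw [h, mul_zero])
      obtain ⟨e, he, h1, h3⟩ := sx_vis hA.1 hxD hs
      have hfar : FarA D (x, 0) (m / 2) A := by
        obtain ⟨e', he', h⟩ := hA.2
        refine ⟨e', he', ?_⟩
        rcases h with h | h
        · have := nm_tri (hdv e') (x, 0) (v, 0)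
          exact Or.inl ⟨h.1, by omega⟩
        · have := nm_tri (tlv e') (x, 0) (v, 0)
          exact Or.inr ⟨h.1, by omega⟩
      obtain ⟨c, -, hc⟩ := exists_cro (a := 1) (m := m / 2) hF (by omega) hA.1
        ⟨e, he, h1, by omega⟩ hfar
      rw [i2_one ⟨c, hc⟩, mul_one]
      have e1 : OF D (v, 0) m w w' (sx D p x) ω = TW D w w' ω A * sx D p x A := by
        unfold OF
        refine Finset.sum_eq_single A (fun B hB hne => ?_) fun h => absurd (mem_filter.2 hA) h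
        have : sx D p x B = 0 := by
          unfold sx
          rw [if_neg]
          intro h
          refine hne (eq_of_mem_pcs (mem_filter.1 hB).1 hA.1 h ?_)
          by_contra hcon
          exact hs (by unfold sx; rw [if_neg hcon])
        rw [this, mul_zero]
      rw [e1, abs_mul]
      have h4 := hTY ω A hA.1 ⟨e, he, h1, by
        have := nm_tri (hdv e) (x, 0) (v, 0)
        have := E.R1
        omega⟩
      calc |TW D w w' ω A| * |sx D p x A| ≤ Y ω * 1 :=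
            mul_le_mul h4 (abs_sx _ _ _ _) (abs_nonneg _) (hY0 ω)
        _ = Y ω := mul_one _
  have hYA : Ind (hA (x, 0) 1 (m / 2)) Y := hYI.mono fun z hz => by
    rw [mem_hA] at hz
    rw [mem_bxx]
    have := nm_tri z (x, 0) (v, 0)
    omega
  refine (Ex_mono (G := fun ω => Y ω * i2 (x, 0) 1 (m / 2) ω) hQ fun S _ => key _).trans ?_
  refine (h2 D η (x, 0) 1 (m / 2) Y E.good (flt_flatA hflt _) le_rfl (by omega) hY0 hYA).trans ?_
  have h5 : ((1 : ℤ) : ℝ) / ((m / 2 : ℤ) : ℝ) ≤ 4 * (1 / (m : ℝ)) := by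
    have h6 : (m : ℝ) ≤ 4 * ((m / 2 : ℤ) : ℝ) := by exact_mod_cast (by omega : m ≤ 4 * (m / 2))
    have h7 : (0 : ℝ) < ((m / 2 : ℤ) : ℝ) := by linarith
    push_cast
    rw [← mul_div_assoc, mul_one, div_le_div_iff₀ h7 hm0]
    linarith
  have hEY : 0 ≤ Ex Q D η Y := Ex_nonneg hQ fun _ _ => hY0 _
  calc C2 * (((1 : ℤ) : ℝ) / ((m / 2 : ℤ) : ℝ)) * Ex Q D η Y
      ≤ C2 * (4 * (1 / (m : ℝ))) * M := mul_le_mul (mul_le_mul_of_nonneg_left h5 hC2.le) hYM hEY
        (by positivity)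
    _ = _ := by ring

/-- **Universality of the local part of the stagger**, and the bound of its far part. -/
def StagQ (Q : ℝ) (t : Fin 3 → ℝ) (K : ℤ) : Prop :=
  ∃ (C γ : ℝ) (s : ℤ → ℤ → ℤ → ℤ → ℝ), 0 ≤ C ∧ 0 < γ ∧
    ∀ (R : ℤ) (D : Finset (ℤ × ℤ)) (η : Cfg) (p : ℤ × ℤ) (w w' : Finset Ed → ℝ) (M : ℝ) (v : ℤ),
      EnvQ Q t K R D η p w w' M (v, 0) → ∀ m x : ℤ, 32 ≤ m → 4 * m ≤ R → |x - v| ≤ m / 4 →
    |Ex Q D η (SW D p w w' x) - Ex Q D η (OF D (v, 0) m w w' (sx D p x)) -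
        s R m v x * Ex Q D η (XW D w)| ≤ C * M * (((1 : ℝ) / R) * ((m : ℝ) / R) ^ γ) ∧
    |Ex Q D η (OF D (v, 0) m w w' (sx D p x))| ≤ C * M * (1 / (m : ℝ))

/-- `StagQ` from the constants. -/
theorem stagQ_of (S : Cs Q K Cm C2 γ Ce) (t : Fin 3 → ℝ) : StagQ Q t K := by
  obtain ⟨C, hC, h⟩ := stag_cell S t
  refine ⟨C + 4 * C2, γ, fun R m v x => sC Q t K R m v x, ?_, S.γ0, ?_⟩
  · have := S.C20
    positivity
  intro R D η p w w' M v E m x hm hmR hx
  have hM := E.M0 S.hQ0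
  have hC2 := S.C20
  have hR1 := E.R1
  have hR0 : (0 : ℝ) < R := by exact_mod_cast (by omega : 0 < R)
  have hm0 : (0 : ℝ) < m := by exact_mod_cast (by omega : 0 < m)
  constructor
  · refine (h R D η p w w' M v E m x hm hmR hx).trans ?_
    refine mul_le_mul_of_nonneg_right (mul_le_mul_of_nonneg_right ?_ hM) (by positivity)
    linarith
  · refine (abs_Ex_le S.hQ0 _).trans ?_
    refine (of_small S.hQ0 S.C20 S.i2 E (by omega) hmR hx).trans ?_
    refine mul_le_mul_of_nonneg_right (mul_le_mul_of_nonneg_right ?_ hM) (by positivity)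
    linarith

end Vale.Agent.P167.N.H365.NQ
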