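import Vale.Agent.P167.N.H365.Q.FinAll
import Vale.Agent.P167.N.H365.Q.Nredc
import Vale.Agent.P167.N.H365.Q.Stag

/-!
# P167, `q < 1`: `NREDC` and `StagQ` for `√q = 2 cos θ`
-/

set_option autoImplicit false

namespace Vale.Agent.P167.N.H365.NQ

open Vale.Agent.P167.H365.NQ Vale.Agent.P167.H365

open Finset Vale.Agent.P167.BR Vale.Agent.P167.FK Vale.Agent.P167.FKA

open Vale.Agent.P167.QM (Side HS)

/-- The constants. -/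
theorem exists_inp {Q : ℝ} (hQ : Kit Q) {K : ℤ} (hK : 1 ≤ K) :
    ∃ (Cm C2 γ Ce γb Cb C3 α c₀ C₀ : ℝ) (K₀ : ℤ), Inp Q K Cm C2 γ Ce γb Cb C3 α c₀ C₀ K₀ := by
  have hQ0 : 0 < Q := hQ.pos
  have hR : RSW Q := hQ.rsw
  obtain ⟨C2, hC2, h2⟩ := i2c_of (H192.Q.i2q hQ)
  obtain ⟨C3, α, hC3, hα, h3⟩ := i3c_of (H192.Q.i3q hQ)
  obtain ⟨K0, c0, C0, hK0, hc0, hC0, hrel⟩ := QM.rel_fin hQ hR
  have P : Cst Q C3 α c0 C0 K0 :=
    { hQ := hQ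
      hα := hα
      hC3 := hC3
      h3 := h3
      hK := hK0
      hc := hc0
      hC := hC0
      hrel := fun z d R hd hR D η hD hη F hF => hrel 0 false z d R hd hR D η hD hη F hF }
  obtain ⟨γ, Ce, hγ, hCe, herr⟩ := er_bd P
  obtain ⟨Cm, hCm, hm⟩ := m2c_of hQ hR (1200 * K).toNat
  obtain ⟨αA, CA, hαA, hCA, hArm, -⟩ := hQ.arm
  obtain ⟨γb, Cb, hγb, hCb, hbl⟩ := QM.block_L1 hQ hαA hCA hArm
  exact ⟨Cm, C2, γ, Ce, γb, Cb, C3, α, c0, C0, K0,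
    { hQ := hQ
      rsw := hR
      S := ⟨hQ0, hK, hCm, hC2, hγ, hCe, hm, h2, herr⟩
      T := ⟨hC3, hα, h3⟩
      P := P
      γb0 := hγb
      Cb0 := hCb
      bl := hbl }⟩

/-- **Q-NRED with bounded constants.** -/
theorem nredc_cos {θ : ℝ} (h1 : Ang θ) (t : Fin 3 → ℝ) {K : ℤ} (hK : 1 ≤ K) :
    NREDC (2 * Real.cos θ) t K := by
  obtain ⟨Cm, C2, γ, Ce, γb, Cb, C3, α, c₀, C₀, K₀, H⟩ := exists_inp h1.kit hK
  exact nredc_inp H (H685.Q.symq_all h1.kit h1.kit.rsw h1.kit.srsw) t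

/-- **The stagger observable.** -/
theorem stagq_cos {θ : ℝ} (h1 : Ang θ) (t : Fin 3 → ℝ) {K : ℤ} (hK : 1 ≤ K) :
    StagQ (2 * Real.cos θ) t K := by
  obtain ⟨Cm, C2, γ, Ce, γb, Cb, C3, α, c₀, C₀, K₀, H⟩ := exists_inp h1.kit hK
  exact stagQ_of H.S t

end Vale.Agent.P167.N.H365.NQ
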