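import Vale.Agent.P167.N.Kit
import Vale.Agent.P167.H365.Q.Core3

/-! generated from Vale.Agent.P167.H365.Q.Core3 (q < 1 port) -/

set_option autoImplicit false

namespace Vale.Agent.P167.N.H365.NQ

open Vale.Agent.P167.H365.NQ Vale.Agent.P167.H365

open Finset Vale.Agent.P167.BR Vale.Agent.P167.FK Vale.Agent.P167.FKA

open Vale.Agent.P167.H562.QM (FltQ)

open Vale.Agent.P167.H166 (bxx mem_bxx)

open Vale.Agent.P167.H192.Q (FlatA I2Q I3Q)

open Vale.Agent.P167.QM (Side HS)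

variable {Q : ℝ} {D : Finset (ℤ × ℤ)} {η : Cfg} {y : ℤ × ℤ} {r R : ℤ} {ω ω' : Cfg}

/-- The constants of the inputs. -/
structure Cst (Q C3 α c C : ℝ) (K : ℤ) : Prop where
  hQ : Kit Q
  hα : 0 < α
  hC3 : 0 < C3
  h3 : I3c Q C3 α
  hK : 1 ≤ K
  hc : 0 < c
  hC : 0 < C
  hrel : REL Q K c C

namespace CH
open Vale.Agent.P167.H365.NQ.CH

variable {D' : Finset (ℤ × ℤ)} {η' : Cfg} {X Y N : Cfg → ℝ} {B : ℝ} {C3 α c C : ℝ} {K : ℤ}

theorem tmE (H : CH Q D η D' η' y r R X Y N B) (P : Cst Q C3 α c C K) {i : ℕ}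
    (hi : 2 ^ i * r + 1 ≤ R) : Ex Q D η (tm y r R Y i) ≤
      C3 * (2 * ((2 ^ i * r : ℤ) : ℝ) / R) ^ (1 + α) * Ex Q D η Y :=
  ex_Yi3 (by linarith [P.hQ.pos]) P.hα P.hC3 P.h3 H.hη H.hF H.Y0 H.hY (H.hr.trans (H.s1 i)) hi

/-- The first term. -/
theorem first (H : CH Q D η D' η' y r R X Y N B) (P : Cst Q C3 α c C K) {γ : ℝ} (hγ : γ ≤ α)
    (hR : r + 1 ≤ R) :
    |dlt Q D η N (Ex Q D' η' N) (fun ω => X ω - gl y (2 ^ 0 * r) X ω)| ≤
      4 * C3 * 2 ^ (1 + α) * ((r : ℝ) / R) ^ (1 + γ) * (B * Ex Q D η Y) := by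
  have hQ0 : 0 < Q := by linarith [P.hQ.pos]
  have hB0 := H.B0 hQ0
  have hEY := H.EY hQ0
  have hC3 := P.hC3
  have e0 : (2 : ℤ) ^ 0 * r = r := by ring
  have h1 := dlt_triv hQ0 H.hN (H.tm0 0) (H.tmI 0) (Z := fun ω => X ω - gl y (2 ^ 0 * r) X ω)
    fun ω => gl_sub H.hX H.hXY H.hY (by have := H.hr; omega) (by omega) ω
  have h2 := (Vale.Agent.P167.N.H365.NQ.CH.tmE H) P (i := 0) (by omega)
  have h4 : (2 * ((2 ^ 0 * r : ℤ) : ℝ) / R) ^ (1 + α) ≤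
      2 ^ (1 + α) * ((r : ℝ) / R) ^ (1 + γ) := by
    rw [show (2 * ((2 ^ 0 * r : ℤ) : ℝ) / R) = 2 * ((r : ℝ) / R) by push_cast; ring,
      Real.mul_rpow (by norm_num) H.rR0.le]
    exact mul_le_mul_of_nonneg_left (rpow_le_rpow_exp H.rR0 H.rR1 (by linarith)) (by positivity)
  calc _ ≤ 4 * B * Ex Q D η (tm y r R Y 0) := h1
    _ ≤ 4 * B * (C3 * (2 ^ (1 + α) * ((r : ℝ) / R) ^ (1 + γ)) * Ex Q D η Y) := by
        refine mul_le_mul_of_nonneg_left (h2.trans ?_) (by positivity)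
        exact mul_le_mul_of_nonneg_right (mul_le_mul_of_nonneg_left h4 hC3.le) hEY
    _ = _ := by ring

/-- The terms, before the exponents. -/
theorem term0 (H : CH Q D η D' η' y r R X Y N B) (P : Cst Q C3 α c C K) {i : ℕ}
    (hi : 2 ^ (i + 1) * r + 1 ≤ R) :
    |dlt Q D η N (Ex Q D' η' N) (fun ω => gl y (2 ^ i * r) X ω - gl y (2 ^ (i + 1) * r) X ω)| ≤
      4 * B * (C * 2 ^ (1 + c) + (2 * K) ^ (1 + c)) * ((2 : ℝ) ^ i)⁻¹ ^ (1 + c) *
        Ex Q D η (tm y r R Y (i + 1)) := by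
  have hQ0 : 0 < Q := by linarith [P.hQ.pos]
  have hB0 := H.B0 hQ0
  have hC := P.hC
  have hc := P.hc
  have hKr : (1 : ℝ) ≤ K := by exact_mod_cast P.hK
  have hK := P.hK
  have hs1 := H.s1 i
  have hr := H.hr
  set s : ℤ := 2 ^ i * r with hs
  have hsr : (s : ℝ) = 2 ^ i * r := by rw [hs]; push_cast; ring
  have hs0 : (0 : ℝ) < s := by exact_mod_cast (by omega : 0 < s)
  have hss' : (2 : ℤ) ^ (i + 1) * r = 2 * s := by rw [hs]; ring
  have hZ : ∀ ω, |gl y s X ω - gl y (2 ^ (i + 1) * r) X ω| ≤ 2 * tm y r R Y (i + 1) ω := fun ω =>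
    gl_sub2 H.hX H.hXY H.hY (by rw [hss']; omega) (by omega) hi ω
  have hEZ : Ex Q D η (fun ω => |gl y s X ω - gl y (2 ^ (i + 1) * r) X ω|) ≤
      2 * Ex Q D η (tm y r R Y (i + 1)) := by
    rw [← Ex_mul_left]
    exact Ex_mono hQ0 fun S _ => hZ _
  have hEt0 : 0 ≤ Ex Q D η (tm y r R Y (i + 1)) := Ex_nonneg hQ0 fun _ _ => H.tm0 _ _
  set p : ℝ := ((2 : ℝ) ^ i)⁻¹ with hp
  have hp0 : 0 < p := by positivity
  have hps : p * s = r := by
    rw [hp, hsr]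
    field_simp
  rcases le_or_gt (K * (r + 1)) s with hKs | hKs
  · have h1 := dlt_rel hQ0 P.hc P.hC P.hrel H.hη H.hF H.hη' H.hF' hr H.hN.loc hB0 (H.NB hQ0)
      (ρ := s) hKs (by omega) (by omega)
      (Z := fun ω => gl y s X ω - gl y (2 ^ (i + 1) * r) X ω)
      (ind_sub (gl_ind fun v hv => nm_of_HS hv)
        (gl_ind fun v hv => (nm_of_HS hv).trans (by rw [hss']; omega)))
    have e1 : (2 * (r : ℝ) / s) ^ (1 + c) = 2 ^ (1 + c) * p ^ (1 + c) := by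
      rw [← Real.mul_rpow (by norm_num) hp0.le]
      congr 1
      rw [← hps]
      field_simp
    rw [e1] at h1
    calc _ ≤ _ := h1
      _ ≤ 2 * C * (2 ^ (1 + c) * p ^ (1 + c)) * B * (2 * Ex Q D η (tm y r R Y (i + 1))) :=
          mul_le_mul_of_nonneg_left hEZ (by positivity)
      _ = 4 * B * (C * 2 ^ (1 + c)) * p ^ (1 + c) * Ex Q D η (tm y r R Y (i + 1)) := by ring
      _ ≤ _ := by
          have : (0 : ℝ) ≤ (2 * (K : ℝ)) ^ (1 + c) := by positivity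
          refine mul_le_mul_of_nonneg_right (mul_le_mul_of_nonneg_right
            (mul_le_mul_of_nonneg_left (by linarith) (by positivity)) (by positivity)) hEt0
  · have h1 := dlt_triv hQ0 H.hN (H.tm0 (i + 1)) (H.tmI (i + 1)) hZ
    have h2 : 1 ≤ (2 * (K : ℝ)) ^ (1 + c) * p ^ (1 + c) := by
      rw [← Real.mul_rpow (by positivity) hp0.le]
      refine Real.one_le_rpow ?_ (by linarith)
      have h5 : s < K * (2 * r) := lt_of_lt_of_le hKs (mul_le_mul_of_nonneg_left (by omega)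
        (by omega))
      have h6 : (s : ℝ) < K * (2 * r) := by exact_mod_cast h5
      rw [← hps] at h6
      have h7 : s * 1 < s * (2 * K * p) := by nlinarith
      exact (lt_of_mul_lt_mul_left h7 hs0.le).le
    calc _ ≤ 4 * B * Ex Q D η (tm y r R Y (i + 1)) * 1 := by rw [mul_one]; exact h1
      _ ≤ 4 * B * Ex Q D η (tm y r R Y (i + 1)) * ((2 * (K : ℝ)) ^ (1 + c) * p ^ (1 + c)) :=
          mul_le_mul_of_nonneg_left h2 (by positivity)
      _ = 4 * B * ((2 * (K : ℝ)) ^ (1 + c)) * p ^ (1 + c) * Ex Q D η (tm y r R Y (i + 1)) := by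
          ring
      _ ≤ _ := by
          have : (0 : ℝ) ≤ C * 2 ^ (1 + c) := by positivity
          refine mul_le_mul_of_nonneg_right (mul_le_mul_of_nonneg_right
            (mul_le_mul_of_nonneg_left (by linarith) (by positivity)) (by positivity)) hEt0

/-- The terms. -/
theorem term (H : CH Q D η D' η' y r R X Y N B) (P : Cst Q C3 α c C K) {γ : ℝ} (hγ0 : 0 < γ)
    (hγc : 2 * γ ≤ c) (hγα : γ ≤ α) {i : ℕ} (hi : 2 ^ (i + 1) * r + 1 ≤ R) :
    |dlt Q D η N (Ex Q D' η' N) (fun ω => gl y (2 ^ i * r) X ω - gl y (2 ^ (i + 1) * r) X ω)| ≤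
      4 * C3 * 4 ^ (1 + α) * (C * 2 ^ (1 + c) + (2 * K) ^ (1 + c)) * ((r : ℝ) / R) ^ (1 + γ) *
        (B * Ex Q D η Y) * ((2 : ℝ) ^ i)⁻¹ ^ γ := by
  have hQ0 : 0 < Q := by linarith [P.hQ.pos]
  have hB0 := H.B0 hQ0
  have hEY := H.EY hQ0
  have hC3 := P.hC3
  have hC := P.hC
  have hR0 := H.R0
  have hKr : (1 : ℝ) ≤ K := by exact_mod_cast P.hK
  have hs1 := H.s1 i
  have hr := H.hr
  have main := (Vale.Agent.P167.N.H365.NQ.CH.term0 H) P hi
  have hE0 := (Vale.Agent.P167.N.H365.NQ.CH.tmE H) P hi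
  set s : ℤ := 2 ^ i * r with hs
  have hsr : (s : ℝ) = 2 ^ i * r := by rw [hs]; push_cast; ring
  have hs0 : (0 : ℝ) < s := by exact_mod_cast (by omega : 0 < s)
  have hss' : (2 : ℤ) ^ (i + 1) * r = 2 * s := by rw [hs]; ring
  have hsR' : (s : ℝ) / R ≤ 1 := by
    rw [div_le_one hR0]
    exact_mod_cast (by omega : s ≤ R)
  have hE : Ex Q D η (tm y r R Y (i + 1)) ≤
      C3 * 4 ^ (1 + α) * ((s : ℝ) / R) ^ (1 + α) * Ex Q D η Y := by
    refine hE0.trans (le_of_eq ?_)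
    rw [hss', show (2 * ((2 * s : ℤ) : ℝ) / R) = 4 * ((s : ℝ) / R) by push_cast; ring,
      Real.mul_rpow (by norm_num) (by positivity)]
    ring
  set p : ℝ := ((2 : ℝ) ^ i)⁻¹ with hp
  have hp0 : 0 < p := by positivity
  have hpp1 : p ≤ 1 := inv_le_one_of_one_le₀ (one_le_pow₀ (by norm_num))
  have hps : p * s = r := by
    rw [hp, hsr]
    field_simp
  have hexp : p ^ (1 + c) * ((s : ℝ) / R) ^ (1 + α) ≤ p ^ γ * ((r : ℝ) / R) ^ (1 + γ) := by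
    calc p ^ (1 + c) * ((s : ℝ) / R) ^ (1 + α) ≤ p ^ (1 + γ + γ) * ((s : ℝ) / R) ^ (1 + γ) := by
          refine mul_le_mul (rpow_le_rpow_exp hp0 hpp1 (by linarith))
            (rpow_le_rpow_exp (by positivity) hsR' (by linarith)) (by positivity) (by positivity)
      _ = p ^ γ * ((r : ℝ) / R) ^ (1 + γ) := by
          rw [Real.rpow_add hp0, mul_comm (p ^ (1 + γ)), mul_assoc,
            ← Real.mul_rpow hp0.le (by positivity), ← mul_div_assoc, hps]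
  calc _ ≤ 4 * B * (C * 2 ^ (1 + c) + (2 * K) ^ (1 + c)) * p ^ (1 + c) *
        Ex Q D η (tm y r R Y (i + 1)) := main
    _ ≤ 4 * B * (C * 2 ^ (1 + c) + (2 * K) ^ (1 + c)) * p ^ (1 + c) *
        (C3 * 4 ^ (1 + α) * ((s : ℝ) / R) ^ (1 + α) * Ex Q D η Y) :=
        mul_le_mul_of_nonneg_left hE (by positivity)
    _ = 4 * C3 * 4 ^ (1 + α) * (C * 2 ^ (1 + c) + (2 * K) ^ (1 + c)) * (B * Ex Q D η Y) *
        (p ^ (1 + c) * ((s : ℝ) / R) ^ (1 + α)) := by ring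
    _ ≤ 4 * C3 * 4 ^ (1 + α) * (C * 2 ^ (1 + c) + (2 * K) ^ (1 + c)) * (B * Ex Q D η Y) *
        (p ^ γ * ((r : ℝ) / R) ^ (1 + γ)) := mul_le_mul_of_nonneg_left hexp (by positivity)
    _ = _ := by ring

/-- The last term. -/
theorem last (H : CH Q D η D' η' y r R X Y N B) (P : Cst Q C3 α c C K) {γ : ℝ}
    (hγc : γ ≤ c) {J : ℕ} (hbig : 16 * K * r ≤ R) (hJ1 : 2 ^ J * r ≤ R / 2)
    (hJ2 : R ≤ 4 * (2 ^ J * r)) : |dlt Q D η N (Ex Q D' η' N) (gl y (2 ^ J * r) X)| ≤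
      2 * C * 8 ^ (1 + c) * ((r : ℝ) / R) ^ (1 + γ) * (B * Ex Q D η Y) := by
  have hQ0 : 0 < Q := by linarith [P.hQ.pos]
  have hB0 := H.B0 hQ0
  have hEY := H.EY hQ0
  have hR0 := H.R0
  have hC := P.hC
  have hK := P.hK
  have hc := P.hc
  have hs1 := H.s1 J
  have hr := H.hr
  have hr1 : (1 : ℝ) ≤ r := by exact_mod_cast hr
  set s : ℤ := 2 ^ J * r with hs
  have hs0 : (0 : ℝ) < s := by exact_mod_cast (by omega : 0 < s)
  have hKs : K * (r + 1) ≤ s := by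
    have h5 : K * (r + 1) ≤ 2 * (K * r) := by nlinarith
    have h6 : 16 * (K * r) ≤ R := by linarith
    omega
  have h1 := dlt_rel hQ0 P.hc P.hC P.hrel H.hη H.hF H.hη' H.hF' hr H.hN.loc hB0 (H.NB hQ0)
    (ρ := s) hKs (by omega) (by omega) (Z := gl y s X) (gl_ind fun v hv => nm_of_HS hv)
  have h2 : Ex Q D η (fun ω => |gl y s X ω|) ≤ Ex Q D η Y := Ex_mono hQ0 fun S _ =>
    gl_abs H.hXY H.hY (by omega) _
  have h4 : (2 * (r : ℝ) / s) ^ (1 + c) ≤ 8 ^ (1 + c) * ((r : ℝ) / R) ^ (1 + γ) := by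
    have h5 : 2 * (r : ℝ) / s ≤ 8 * ((r : ℝ) / R) := by
      have h6 : (R : ℝ) ≤ 4 * s := by exact_mod_cast hJ2
      rw [div_le_iff₀ hs0]
      have h7 : 8 * ((r : ℝ) / R) * s = 2 * r * (4 * s / R) := by field_simp; ring
      rw [h7]
      have h8 : (1 : ℝ) ≤ 4 * (s : ℝ) / R := by rw [le_div_iff₀ hR0]; linarith
      nlinarith
    calc _ ≤ (8 * ((r : ℝ) / R)) ^ (1 + c) :=
          Real.rpow_le_rpow (by positivity) h5 (by linarith)
      _ = 8 ^ (1 + c) * ((r : ℝ) / R) ^ (1 + c) := Real.mul_rpow (by norm_num) H.rR0.le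
      _ ≤ _ := mul_le_mul_of_nonneg_left (rpow_le_rpow_exp H.rR0 H.rR1 (by linarith))
          (by positivity)
  calc _ ≤ 2 * C * (2 * (r : ℝ) / s) ^ (1 + c) * B * Ex Q D η (fun ω => |gl y s X ω|) := h1
    _ ≤ 2 * C * (8 ^ (1 + c) * ((r : ℝ) / R) ^ (1 + γ)) * B * Ex Q D η Y := by
        have := H.rR0
        refine mul_le_mul (mul_le_mul_of_nonneg_right (mul_le_mul_of_nonneg_left h4
          (by positivity)) hB0) h2 (Ex_nonneg hQ0 fun _ _ => abs_nonneg _) (by positivity)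
    _ = _ := by ring

end CH

/-- **The core estimate.** -/
theorem core {C3 α c C : ℝ} {K : ℤ} (P : Cst Q C3 α c C K) :
    ∃ γ C' : ℝ, 0 < γ ∧ 0 < C' ∧ ∀ (D : Finset (ℤ × ℤ)) (η : Cfg) (D' : Finset (ℤ × ℤ)) (η' : Cfg)
      (y : ℤ × ℤ) (r R : ℤ) (X Y N : Cfg → ℝ) (B : ℝ), CH Q D η D' η' y r R X Y N B →
      |Ex Q D η (fun ω => N ω * X ω) - Ex Q D' η' N * Ex Q D η X| ≤
        C' * ((r : ℝ) / R) ^ (1 + γ) * (B * Ex Q D η Y) := by
  have hQ0 : 0 < Q := by linarith [P.hQ.pos]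
  have hc := P.hc
  have hα := P.hα
  have hC := P.hC
  have hC3 := P.hC3
  set γ : ℝ := min c α / 2 with hγ
  have hγ0 : 0 < γ := by positivity
  have hγc : 2 * γ ≤ c := by rw [hγ]; linarith [min_le_left c α]
  have hγα : 2 * γ ≤ α := by rw [hγ]; linarith [min_le_right c α]
  obtain ⟨Cg, hCg, hg⟩ := geom_neg γ hγ0
  have hKr : (1 : ℝ) ≤ K := by exact_mod_cast P.hK
  set A : ℝ := 4 * C3 * 4 ^ (1 + α) * (C * 2 ^ (1 + c) + (2 * K) ^ (1 + c)) with hA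
  have hA0 : 0 < A := by positivity
  refine ⟨γ, 4 * (16 * K) ^ (1 + γ) + (4 * C3 * 2 ^ (1 + α) + A * Cg + 2 * C * 8 ^ (1 + c)), hγ0,
    by positivity, ?_⟩
  intro D η D' η' y r R X Y N B H
  have hB0 := H.B0 hQ0
  have hEY := H.EY hQ0
  have hrR0 := H.rR0
  show |dlt Q D η N (Ex Q D' η' N) X| ≤ _
  set n := Ex Q D' η' N
  set T := ((r : ℝ) / R) ^ (1 + γ)
  have hT0 : 0 < T := by positivity
  have hTB : 0 ≤ T * (B * Ex Q D η Y) := by positivity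
  have hC'' : (0 : ℝ) ≤ 4 * C3 * 2 ^ (1 + α) + A * Cg + 2 * C * 8 ^ (1 + c) := by positivity
  have hC1 : (0 : ℝ) ≤ 4 * (16 * K) ^ (1 + γ) := by positivity
  rcases lt_or_ge R (16 * K * r) with hsm | hbig
  · have h1 := H.few hQ0 P.hK hγ0 hsm
    calc _ ≤ _ := h1
      _ = 4 * (16 * K) ^ (1 + γ) * (T * (B * Ex Q D η Y)) := by ring
      _ ≤ (4 * (16 * K) ^ (1 + γ) + (4 * C3 * 2 ^ (1 + α) + A * Cg + 2 * C * 8 ^ (1 + c))) *
          (T * (B * Ex Q D η Y)) := mul_le_mul_of_nonneg_right (by linarith) hTB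
      _ = _ := by ring
  · obtain ⟨J, hJ1, hJ2⟩ := exists_J P.hK H.hr hbig
    have hr := H.hr
    have hsJ : ∀ i ≤ J, (2 : ℤ) ^ i * r ≤ 2 ^ J * r := fun i hi =>
      mul_le_mul_of_nonneg_right (pow_le_pow_right₀ (by norm_num) hi) (by omega)
    have hsR : ∀ i ≤ J, (2 : ℤ) ^ i * r + 1 ≤ R := fun i hi => by
      have := hsJ i hi
      have := H.s1 J
      omega
    have b0 : |dlt Q D η N n (fun ω => X ω - gl y (2 ^ 0 * r) X ω)| ≤
        4 * C3 * 2 ^ (1 + α) * T * (B * Ex Q D η Y) := Vale.Agent.P167.N.H365.NQ.CH.first H P (γ := γ) (by linarith) (by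
      have := hsR 0 (Nat.zero_le _)
      simpa using this)
    have bJ : |dlt Q D η N n (gl y (2 ^ J * r) X)| ≤
        2 * C * 8 ^ (1 + c) * T * (B * Ex Q D η Y) :=
      Vale.Agent.P167.N.H365.NQ.CH.last H P (γ := γ) (by linarith) hbig hJ1 hJ2
    have chain : ∀ j ≤ J, |dlt Q D η N n (gl y (2 ^ 0 * r) X)| ≤
        ∑ i ∈ range j, A * T * (B * Ex Q D η Y) * ((2 : ℝ) ^ i)⁻¹ ^ γ +
          |dlt Q D η N n (gl y (2 ^ j * r) X)| := by
      intro j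
      induction j with
      | zero => intro _; simp
      | succ j ih =>
        intro hj
        have h1 := ih (by omega)
        have h2 := Vale.Agent.P167.N.H365.NQ.CH.term H P hγ0 hγc (by linarith) (i := j) (hsR (j + 1) hj)
        have h4 : |dlt Q D η N n (gl y (2 ^ j * r) X)| ≤
            |dlt Q D η N n (fun ω => gl y (2 ^ j * r) X ω - gl y (2 ^ (j + 1) * r) X ω)| +
            |dlt Q D η N n (gl y (2 ^ (j + 1) * r) X)| := by
          rw [dlt_sub (gl y (2 ^ j * r) X) (gl y (2 ^ (j + 1) * r) X)]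
          exact abs_add_le _ _
        rw [Finset.sum_range_succ]
        linarith
    have hfin := chain J le_rfl
    rw [← Finset.mul_sum] at hfin
    have hsum := mul_le_mul_of_nonneg_left (hg J) (show 0 ≤ A * T * (B * Ex Q D η Y) by positivity)
    have h5 : |dlt Q D η N n X| ≤ |dlt Q D η N n (fun ω => X ω - gl y (2 ^ 0 * r) X ω)| +
        |dlt Q D η N n (gl y (2 ^ 0 * r) X)| := by
      rw [dlt_sub X (gl y (2 ^ 0 * r) X)]
      exact abs_add_le _ _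
    calc |dlt Q D η N n X| ≤ 4 * C3 * 2 ^ (1 + α) * T * (B * Ex Q D η Y) +
        (A * T * (B * Ex Q D η Y) * Cg + 2 * C * 8 ^ (1 + c) * T * (B * Ex Q D η Y)) :=
          h5.trans (add_le_add b0 (hfin.trans (add_le_add hsum bJ)))
      _ = (4 * C3 * 2 ^ (1 + α) + A * Cg + 2 * C * 8 ^ (1 + c)) * (T * (B * Ex Q D η Y)) := by ring
      _ ≤ (4 * (16 * K) ^ (1 + γ) + (4 * C3 * 2 ^ (1 + α) + A * Cg + 2 * C * 8 ^ (1 + c))) *
          (T * (B * Ex Q D η Y)) := mul_le_mul_of_nonneg_right (by linarith) hTB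
      _ = _ := by ring

end Vale.Agent.P167.N.H365.NQ
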