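import Vale.Agent.P167.N.Kit
import Vale.Agent.P167.N.H562.Q.Mom2
import Vale.Agent.P167.H365.Q.Mom

/-! generated from Vale.Agent.P167.H365.Q.Mom (q < 1 port) -/

set_option autoImplicit false

namespace Vale.Agent.P167.N.H365.NQ

open Vale.Agent.P167.H365.NQ Vale.Agent.P167.H365

open Finset Vale.Agent.P167.BR Vale.Agent.P167.FK Vale.Agent.P167.FKA

open Vale.Agent.P167.H562.QM (FltQ)

open Vale.Agent.P167.H166 (bxx mem_bxx)

open Vale.Agent.P167.H167 (Bg)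

open Vale.Agent.P167.H192.Q (FlatA I2Q I3Q)

variable {Q : ℝ} {D D1 D2 : Finset (ℤ × ℤ)} {η : Cfg} {y u p c x : ℤ × ℤ} {a d r R K L m : ℤ}
  {ω ω' : Cfg} {A : Finset Ed} {t : Fin 3 → ℝ}

theorem m2c_of (hQ : Kit Q) (h : RSW Q) (Lam : ℕ) : ∃ C : ℝ, 0 < C ∧ M2c Q C Lam :=
  H562.QM.mom2 hQ h Lam

end Vale.Agent.P167.N.H365.NQ
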