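import Vale.Agent.P167.N.Kit
import Vale.Agent.P167.N.H365.Q.Core3
import Vale.Agent.P167.H365.Q.Obs

/-! generated from Vale.Agent.P167.H365.Q.Obs (q < 1 port) -/

set_option autoImplicit false

namespace Vale.Agent.P167.N.H365.NQ

open Vale.Agent.P167.H365.NQ Vale.Agent.P167.H365

open Finset Vale.Agent.P167.BR Vale.Agent.P167.FK Vale.Agent.P167.FKA

open Vale.Agent.P167.H562.QM (FltQ)

open Vale.Agent.P167.H166 (bxx mem_bxx)

open Vale.Agent.P167.H167 (Bg)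

open Vale.Agent.P167.H192.Q (FlatA I2Q I3Q)

variable {Q : ℝ} {D H D1 D2 : Finset (ℤ × ℤ)} {η : Cfg} {y u p c x z z1 z2 : ℤ × ℤ}
  {a d r R K L m : ℤ} {ω ω' : Cfg} {A : Finset Ed} {t : Fin 3 → ℝ} {X Y N N' : Cfg → ℝ} {M B : ℝ}

theorem er_bd {C3 α c₀ C₀ : ℝ} {K₀ : ℤ} (P : Cst Q C3 α c₀ C₀ K₀) :
    ∃ γ C' : ℝ, 0 < γ ∧ 0 < C' ∧ ∀ (K R : ℤ) (D : Finset (ℤ × ℤ)) (η : Cfg) (p u : ℤ × ℤ)
      (X Y : Cfg → ℝ) (M : ℝ), XY Q K R D η p u X Y M → ∀ (y : ℤ × ℤ) (r : ℤ) (N : Cfg → ℝ) (B : ℝ),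
      nm (y - u) ≤ R / 2 → y.2 = u.2 → 1 ≤ r → r ≤ R / 2 →
      LocB Q D η (HR K R u) eta0 y r N B →
      |er Q D η (HR K R u) X N| ≤ C' * ((r : ℝ) / R) ^ (1 + γ) * (B * M) := by
  have hQ0 : 0 < Q := by linarith [P.hQ.pos]
  obtain ⟨γ, C', hγ, hC', hcore⟩ := core P
  refine ⟨γ, C' * 3 ^ (1 + γ), hγ, by positivity, ?_⟩
  intro K R D η p u X Y M h y r N B hy hy2 hr hrR hN
  have hR1 := h.gq.geo.R1
  have hL8 := h.gq.geo.L8
  have hg := gq_HR (u := u) h.gq.geo.one_le hR1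
  have hYy : Ind (bxx y (R / 2)) Y := h.hY.mono fun v hv => by
    rw [mem_bxx] at hv ⊢
    have := nm_tri v y u
    omega
  have H : CH Q D η (HR K R u) eta0 y r (R / 2) X Y N B :=
    { hη := h.gq.good
      hF := flt_shift h.gq.fl (by omega) hy2
      hη' := good_eta0
      hF' := flt_shift hg.fl (by omega) hy2
      hr := hr
      hrR := hrR
      hXY := h.hXY
      hY := hYy
      hX := h.hX y (by omega) hy2 _ (by omega)
      hN := hN }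
  have h1 := hcore D η (HR K R u) eta0 y r (R / 2) X Y N B H
  have hB0 := H.B0 hQ0
  have hEY := H.EY hQ0
  have hR0 : (0 : ℝ) < R := by exact_mod_cast (by omega : 0 < R)
  have hR2 : (0 : ℝ) < ((R / 2 : ℤ) : ℝ) := by exact_mod_cast (by omega : 0 < R / 2)
  have hr0 : (0 : ℝ) < r := by exact_mod_cast (by omega : 0 < r)
  have h3 : (R : ℝ) ≤ 3 * ((R / 2 : ℤ) : ℝ) := by exact_mod_cast (by omega : R ≤ 3 * (R / 2))
  have h4 : (r : ℝ) / ((R / 2 : ℤ) : ℝ) ≤ 3 * ((r : ℝ) / R) := by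
    rw [div_le_iff₀ hR2]
    have : 3 * ((r : ℝ) / R) * ((R / 2 : ℤ) : ℝ) = r * (3 * ((R / 2 : ℤ) : ℝ) / R) := by
      field_simp
    rw [this]
    have h5 : 1 ≤ 3 * ((R / 2 : ℤ) : ℝ) / R := by rw [le_div_iff₀ hR0]; linarith
    nlinarith
  refine h1.trans ?_
  calc C' * ((r : ℝ) / ((R / 2 : ℤ) : ℝ)) ^ (1 + γ) * (B * Ex Q D η Y)
      ≤ C' * (3 * ((r : ℝ) / R)) ^ (1 + γ) * (B * M) := by
        refine mul_le_mul (mul_le_mul_of_nonneg_left (Real.rpow_le_rpow (by positivity) h4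
          (by linarith)) hC'.le) (mul_le_mul_of_nonneg_left h.hM hB0) (by positivity)
          (by positivity)
    _ = _ := by
        rw [Real.mul_rpow (by norm_num) (by positivity)]
        ring

end Vale.Agent.P167.N.H365.NQ
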