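import Vale.Agent.P167.N.Kit
import Vale.Agent.P167.N.H365.Q.Core3
import Vale.Agent.P167.H365.Q.NearB

/-! generated from Vale.Agent.P167.H365.Q.NearB (q < 1 port) -/

set_option autoImplicit false

namespace Vale.Agent.P167.N.H365.NQ

open Vale.Agent.P167.H365.NQ Vale.Agent.P167.H365

open Finset Vale.Agent.P167.BR Vale.Agent.P167.FK Vale.Agent.P167.FKA

open Vale.Agent.P167.H562.QM (FltQ)

open Vale.Agent.P167.H166 (bxx mem_bxx)

open Vale.Agent.P167.H167 (Bg)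

open Vale.Agent.P167.H192.Q (FlatA I2Q I3Q)

variable {Q : ℝ} {D H D1 D2 : Finset (ℤ × ℤ)} {η : Cfg} {y u p c x z z1 z2 : ℤ × ℤ}
  {a d r r' R K L m : ℤ} {ω ω' : Cfg} {A : Finset Ed} {t : Fin 3 → ℝ} {X Y N N' : Cfg → ℝ}
  {M B : ℝ} {Cm C2 γ Ce : ℝ}

/-- **The small scales, boundary site.** -/
theorem base_xQ (S : Cs Q K Cm C2 γ Ce) (t : Fin 3 → ℝ) : ∃ C : ℝ, 0 ≤ C ∧
    ∀ (R : ℤ) (D : Finset (ℤ × ℤ)) (η : Cfg) (p u : ℤ × ℤ)
      (X Y : Cfg → ℝ) (M : ℝ), XY Q K R D η p u X Y M → ∀ (k : ℕ) (x : ℤ × ℤ), 1 ≤ k →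
      64 * (k : ℤ) ≤ R → nm (x - u) ≤ R / 2 → x.2 = u.2 →
    |er Q D η (HR K R u) X (SP t D p (Nr D x (8 * k)) (fun A => se D p A x))| ≤
      C * M * ((k : ℝ) / R) ^ (1 + γ) := by
  have hγ := S.γ0
  have hCm := S.Cm0
  have hCe := S.Ce0
  have hT := T0_nonneg t
  obtain ⟨Cg, hCg, hg⟩ := geom (1 + γ) (by linarith)
  refine ⟨Ce * (T0 t * Cm) * (32 ^ (1 + γ) * (2 + Cg)), by positivity,
    fun R D η p u X Y M h k x hk hkR hx hx2 => ?_⟩
  obtain ⟨J, hJ1, hJ2⟩ := exists_log hk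
  have hM := h.M0 S.hQ0
  have hR0 : (0 : ℝ) < R := by exact_mod_cast (by omega : 0 < R)
  have hkr : (1 : ℝ) ≤ k := by exact_mod_cast hk
  have hJz : (2 : ℤ) ^ J ≤ k := by exact_mod_cast hJ1
  have hJz2 : (k : ℤ) < 2 * 2 ^ J := by
    have : (k : ℤ) < 2 ^ (J + 1) := by exact_mod_cast hJ2
    rwa [pow_succ, mul_comm] at this
  have hp1 : ∀ i : ℕ, (1 : ℤ) ≤ 2 ^ i := fun i => one_le_pow₀ (by norm_num)
  have hpJ : ∀ i : ℕ, i ≤ J → (2 : ℤ) ^ i ≤ 2 ^ J := fun i hi =>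
    pow_le_pow_right₀ (by norm_num) hi
  have h4 : nm (x - x) = 0 := nm_self x
  -- core
  have core : |er Q D η (HR K R u) X (SP t D p (Nr D x (2 ^ 0)) (fun A => se D p A x))| ≤
      Ce * (((4 : ℤ) : ℝ) / R) ^ (1 + γ) * (T0 t * Cm * M) := by
    have := core_er (t := t) (c := x) (y := x) (r' := 4) S h (g := fun D p A => se D p A x)
      (fun _ _ _ => abs_se) (intr_se (mem_sites_flat (geo_HR h.gq.geo.one_le h.gq.geo.R1)
        (by have := h.gq.geo.L8; have := Vale.Agent.P167.H365.nm_nonneg (x - u); omega) hx2.ge)) hx2 (by omega)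
      (by omega) hx
    simpa using this
  -- rings
  have ring : ∀ i < J, |er Q D η (HR K R u) X (SP t D p (fun A => Nr D x (2 ^ (i + 1)) A ∧
      ¬ Nr D x (2 ^ i) A) (fun A => se D p A x))| ≤
      Ce * (((8 * 2 ^ i : ℤ) : ℝ) / R) ^ (1 + γ) * (T0 t * Cm * M) := by
    intro i hi
    have h1 := hp1 i
    have h2 := hpJ (i + 1) (by omega)
    have h3 : (2 : ℤ) ^ (i + 1) = 2 * 2 ^ i := by rw [pow_succ, mul_comm]
    exact ring_er (t := t) (c := x) (y := x) (r := 2 ^ i) (L := 2 ^ (i + 1)) (r' := 8 * 2 ^ i) S h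
      (P := fun D A => Nr D x (2 ^ (i + 1)) A ∧ ¬ Nr D x (2 ^ i) A) (fun D A h => h)
      (same_nr2 _ _ _ _) hx2 h1 (by omega) (by omega) (by omega) (by omega) hx hx2.ge
  -- base
  have base : |er Q D η (HR K R u) X (SP t D p (fun A => Nr D x (8 * k) A ∧
      ¬ Nr D x (2 ^ J) A) (fun A => se D p A x))| ≤
      Ce * (((32 * k : ℤ) : ℝ) / R) ^ (1 + γ) * (T0 t * Cm * M) := by
    have h1 := hp1 J
    exact ring_er (t := t) (c := x) (y := x) (r := 2 ^ J) (L := 8 * k) (r' := 32 * k) S h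
      (P := fun D A => Nr D x (8 * k) A ∧ ¬ Nr D x (2 ^ J) A) (fun D A h => h)
      (same_nr2 _ _ _ _) hx2 h1 (by omega) (by omega) (by omega) (by omega) hx hx2.ge
  have e1 := er_split (Q := Q) (D := D) (η := η) (H := HR K R u) (X := X) (t := t) (p := p)
    (P := Nr D x (2 ^ J)) (P' := Nr D x (8 * k)) (fun A h => h.mono (by omega))
    (fun A => se D p A x)
  have e2 := er_chain (Q := Q) (η := η) (H := HR K R u) (X := X) (t := t) (D := D) (p := p)
    (fun A => se D p A x) (P := fun i => Nr D x (2 ^ i)) (fun j A h => h.mono (by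
      have h3 : (2 : ℤ) ^ (j + 1) = 2 * 2 ^ j := by rw [pow_succ, mul_comm]
      have := hp1 j
      omega)) J
  set T := ((32 * k : ℝ) / R) ^ (1 + γ) with hT'
  have hT0 : 0 ≤ T := by positivity
  have m1 : (((4 : ℤ) : ℝ) / R) ^ (1 + γ) ≤ T :=
    rpow_frac_mono (by norm_num) (by push_cast; linarith) hR0 (by linarith)
  have m3 : (((32 * k : ℤ) : ℝ) / R) ^ (1 + γ) = T := by push_cast; rfl
  have m4 : T = 32 ^ (1 + γ) * ((k : ℝ) / R) ^ (1 + γ) := by
    rw [hT', ← Real.mul_rpow (by norm_num) (by positivity)]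
    congr 1; ring
  have hTm : 0 ≤ T0 t * Cm * M := by positivity
  have hsum : ∑ i ∈ range J, Ce * (((8 * 2 ^ i : ℤ) : ℝ) / R) ^ (1 + γ) * (T0 t * Cm * M) ≤
      Ce * (Cg * T) * (T0 t * Cm * M) := by
    rw [← Finset.sum_mul, ← Finset.mul_sum]
    refine mul_le_mul_of_nonneg_right (mul_le_mul_of_nonneg_left ?_ hCe.le) hTm
    have e1 : ∀ i : ℕ, (((8 * 2 ^ i : ℤ) : ℝ) / R) ^ (1 + γ) =
        (8 / R) ^ (1 + γ) * ((2 : ℝ) ^ i) ^ (1 + γ) := fun i => by
      rw [← Real.mul_rpow (by positivity) (by positivity)]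
      congr 1
      push_cast
      ring
    simp only [e1]
    rw [← Finset.mul_sum]
    calc (8 / (R : ℝ)) ^ (1 + γ) * ∑ i ∈ range J, ((2 : ℝ) ^ i) ^ (1 + γ)
        ≤ (8 / R) ^ (1 + γ) * (Cg * ((2 : ℝ) ^ J) ^ (1 + γ)) :=
          mul_le_mul_of_nonneg_left (hg J) (by positivity)
      _ = Cg * (8 * (2 : ℝ) ^ J / R) ^ (1 + γ) := by
          rw [show (8 * (2 : ℝ) ^ J / R) = 8 / R * 2 ^ J by ring,
            Real.mul_rpow (by positivity) (by positivity)]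
          ring
      _ ≤ Cg * T := by
          refine mul_le_mul_of_nonneg_left ?_ hCg.le
          have : (2 : ℝ) ^ J ≤ k := by exact_mod_cast hJ1
          exact rpow_frac_mono (by positivity) (by linarith) hR0 (by linarith)
  rw [e1, e2]
  rw [m3] at base
  calc |er Q D η (HR K R u) X (SP t D p (Nr D x (2 ^ 0)) fun A => se D p A x) +
        ∑ i ∈ range J, er Q D η (HR K R u) X (SP t D p (fun A => Nr D x (2 ^ (i + 1)) A ∧
          ¬ Nr D x (2 ^ i) A) fun A => se D p A x) +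
        er Q D η (HR K R u) X (SP t D p (fun A => Nr D x (8 * k) A ∧ ¬ Nr D x (2 ^ J) A)
          fun A => se D p A x)|
      ≤ (Ce * T * (T0 t * Cm * M) + Ce * (Cg * T) * (T0 t * Cm * M)) +
        Ce * T * (T0 t * Cm * M) := by
        refine (abs_add_le _ _).trans (add_le_add ((abs_add_le _ _).trans (add_le_add
          (core.trans ?_) (((Finset.abs_sum_le_sum_abs _ _).trans (Finset.sum_le_sum fun i hi =>
          ring i (mem_range.1 hi))).trans hsum))) base)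
        exact mul_le_mul_of_nonneg_right (mul_le_mul_of_nonneg_left m1 hCe.le) hTm
    _ = _ := by rw [m4]; ring

end Vale.Agent.P167.N.H365.NQ
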