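import Vale.Agent.P167.N.Kit
import Vale.Agent.P167.N.H365.Q.NearD
import Vale.Agent.P167.H365.Q.Red

/-! generated from Vale.Agent.P167.H365.Q.Red (q < 1 port) -/

set_option autoImplicit false

namespace Vale.Agent.P167.N.H365.NQ

open Vale.Agent.P167.H365.NQ Vale.Agent.P167.H365

open Finset Vale.Agent.P167.BR Vale.Agent.P167.FK Vale.Agent.P167.FKA

open Vale.Agent.P167.H318 (st ex J St Lo CoConn)

open Vale.Agent.P167.H562.QM (FltQ)

open Vale.Agent.P167.H166 (bxx mem_bxx)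

open CQ (gx)

variable {Q : ℝ} {D : Finset (ℤ × ℤ)} {η : Cfg} {p u y : ℤ × ℤ} {a m R r K W x d : ℤ} {ω : Cfg}
  {w w' : Finset Ed → ℝ} {t : Fin 3 → ℝ} {A : Finset Ed} {ψ : ℤ → ℝ} {k : ℕ} {M c : ℝ}

/-- **One cell.** -/
theorem cellQ {Cm C2 γ Ce γb Cb C3 α : ℝ} (S : Cs Q K Cm C2 γ Ce) (T : Cf Q C3 α) (hγb : 0 < γb)
    (hCb : 0 < Cb) (hBL : BL1 Q γb Cb) (t : Fin 3 → ℝ) : ∃ C' : ℝ, 0 ≤ C' ∧
    ∀ (ε c Cc : ℝ) (K1 : ℤ) (k : ℕ) (W : ℤ), 0 ≤ ε → SymQE Q ε K1 k W c → |c| ≤ Cc * k →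
    K1 * k ≤ W → 12 ≤ k → 32 * (k : ℤ) ≤ W →
    ∀ (R : ℤ) (D : Finset (ℤ × ℤ)) (η : Cfg) (p : ℤ × ℤ) (w w' : Finset Ed → ℝ) (M : ℝ)
    (v m : ℤ) (ψ : ℤ → ℝ) (I : Finset ℤ), EnvQ Q t K R D η p w w' M (v, 0) → CoConn D →
    Psi ψ v W → 5 * W ≤ m → 4 * m ≤ R → (∀ x, ψ x ≠ 0 → x ∈ I) →
    |∑ x ∈ I, ψ x * (GG Q D η p w w' k c x - nC Q t K R m k c v x * Ex Q D η (XW D w))| ≤
      C' * (1 + Cc) * M * k * ((W : ℝ) / R * ((m : ℝ) / R) ^ γ + (((W : ℝ) / m) ^ (1 + α) +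
        (ε + Cc / W) * ((W : ℝ) / m))) := by
  classical
  obtain ⟨Cn, hCn, hn⟩ := near_cell S hγb hCb hBL t
  obtain ⟨Cfr, hCf, hfar⟩ := far_cell S.hQ0 S.Cm0 S.C20 T.C30 T.α0 S.m2 S.i2 T.i3
  refine ⟨Cn + Cfr, by positivity, ?_⟩
  intro ε c Cc K1 k W hε hS hc hKW hk h32 R D η p w w' M v m ψ I E hco hψ h5 h4 hI
  have hM := E.M0 S.hQ0
  have hR0 : (0 : ℝ) < R := by exact_mod_cast (by omega : 0 < R)
  have hm0 : (0 : ℝ) < m := by exact_mod_cast (by omega : 0 < m)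
  have hWr : (1 : ℝ) ≤ W := by exact_mod_cast (by omega : 1 ≤ W)
  have hkr : (1 : ℝ) ≤ k := by exact_mod_cast (by omega : 1 ≤ k)
  have hCc : 0 ≤ Cc := by
    by_contra hcon
    push Not at hcon
    have := abs_nonneg c
    nlinarith
  obtain ⟨Y, hYI, hXY, hTY, hYM⟩ := E.Y
  have F : FD Q t K R D η p w w' M (v, 0) k W m ψ Y :=
    ⟨E, hYI, hXY, hTY, hYM, rfl, by omega, by omega, by omega, by omega, hψ⟩
  have C := F.cq
  set I' := I.filter fun x => ψ x ≠ 0 with hI'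
  have hXYs : XY Q K R D η p (v, 0) (XW D w) Y M :=
    { gq := E.gq
      hX := fun y hy hy2 L hL => E.oneCr hy hy2 hL
      hY := hYI
      hXY := hXY
      hM := hYM }
  have b1 := hn R D η p (v, 0) (XW D w) Y M hXYs rfl k W m I' ψ c Cc hk h32 (by omega) h4
    (fun x hx => by rw [hI', mem_filter] at hx; exact hψ.abs_le hx.2) hψ.le hc
  have b2 := hfar t ε c Cc K1 k W hε hS hc hKW R D η p (v, 0) w w' M m ψ I Y F hco hI
  have e1 : ∑ x ∈ I, ψ x * (GG Q D η p w w' k c x - nC Q t K R m k c v x * Ex Q D η (XW D w)) =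
      ∑ x ∈ I', ψ x * (er Q D η (HR K R (v, 0)) (XW D w) (NF t D p (v, 0) m k x) -
        c * er Q D η (HR K R (v, 0)) (XW D w) (NS t D p (v, 0) m x)) +
      Ex Q D η (OF D (v, 0) m w w' (gx D p k c ψ I)) := by
    have e2 : Ex Q D η (OF D (v, 0) m w w' (gx D p k c ψ I)) =
        ∑ x ∈ I', ψ x * (Ex Q D η (OF D (v, 0) m w w' (H365.dl D p (x, 0 + (k : ℤ)) (x, 0))) -
          c * Ex Q D η (OF D (v, 0) m w w' (sx D p x))) := by
      have e3 : Ex Q D η (OF D (v, 0) m w w' (gx D p k c ψ I)) = Ex Q D η (fun ω =>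
          ∑ x ∈ I, ψ x * (OF D (v, 0) m w w' (H365.dl D p (x, 0 + (k : ℤ)) (x, 0)) ω -
            c * OF D (v, 0) m w w' (sx D p x) ω)) := Ex_congr fun S _ => OF_gx
      rw [e3, Ex_sum, hI']
      rw [Finset.sum_filter_of_ne fun x _ h => left_ne_zero_of_mul h]
      refine Finset.sum_congr rfl fun x _ => ?_
      rw [Ex_mul_left, Ex_sub, Ex_mul_left]
    have e4 : ∑ x ∈ I, ψ x * (GG Q D η p w w' k c x -
        nC Q t K R m k c v x * Ex Q D η (XW D w)) =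
        ∑ x ∈ I', ψ x * (GG Q D η p w w' k c x -
          nC Q t K R m k c v x * Ex Q D η (XW D w)) := by
      rw [hI']
      exact (Finset.sum_filter_of_ne fun x _ h => left_ne_zero_of_mul h).symm
    rw [e2, e4, ← Finset.sum_add_distrib]
    refine Finset.sum_congr rfl fun x hx => ?_
    rw [hI', mem_filter] at hx
    have hxv := hψ.abs_le hx.2
    rw [GG_split (K := K) (R := R) C.nat (C.mem_x hxv le_rfl (by omega)),
      nC_eq E.geo (by omega) (by omega) (by omega) (by omega)]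
    ring
  rw [e1]
  refine (abs_add_le _ _).trans ((add_le_add b1 b2).trans ?_)
  have t1 : 0 ≤ (1 + Cc) * M * k * ((W : ℝ) / R * ((m : ℝ) / R) ^ γ) := by positivity
  have t2 : 0 ≤ (1 + Cc) * M * k * (((W : ℝ) / m) ^ (1 + α) +
      (ε + Cc / W) * ((W : ℝ) / m)) := by positivity
  calc Cn * (1 + Cc) * M * (W * (((k : ℝ) / R) * ((m : ℝ) / R) ^ γ)) +
        Cfr * (1 + Cc) * M * k * (((W : ℝ) / m) ^ (1 + α) + (ε + Cc / W) * ((W : ℝ) / m))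
      = Cn * ((1 + Cc) * M * k * ((W : ℝ) / R * ((m : ℝ) / R) ^ γ)) +
        Cfr * ((1 + Cc) * M * k * (((W : ℝ) / m) ^ (1 + α) +
          (ε + Cc / W) * ((W : ℝ) / m))) := by ring
    _ ≤ (Cn + Cfr) * ((1 + Cc) * M * k * ((W : ℝ) / R * ((m : ℝ) / R) ^ γ)) +
        (Cn + Cfr) * ((1 + Cc) * M * k * (((W : ℝ) / m) ^ (1 + α) +
          (ε + Cc / W) * ((W : ℝ) / m))) :=
        add_le_add (mul_le_mul_of_nonneg_right (by linarith) t1)
          (mul_le_mul_of_nonneg_right (by linarith) t2)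
    _ = _ := by ring

end Vale.Agent.P167.N.H365.NQ
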