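import Vale.Agent.P167.N.Kit
import Vale.Agent.P167.N.H365.Q.Core3
import Vale.Agent.P167.N.H365.Q.Mom
import Vale.Agent.P167.H365.Q.Ref

/-! generated from Vale.Agent.P167.H365.Q.Ref (q < 1 port) -/

set_option autoImplicit false

namespace Vale.Agent.P167.N.H365.NQ

open Vale.Agent.P167.H365.NQ Vale.Agent.P167.H365

open Finset Vale.Agent.P167.BR Vale.Agent.P167.FK Vale.Agent.P167.FKA

open Vale.Agent.P167.H562.QM (FltQ)

open Vale.Agent.P167.H166 (bxx mem_bxx)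

open Vale.Agent.P167.H167 (Bg)

open Vale.Agent.P167.QM (Side HS)

variable {Q : ℝ} {D : Finset (ℤ × ℤ)} {η : Cfg} {p u y : ℤ × ℤ} {m R R' r K W x d : ℤ} {ω : Cfg}
  {t : Fin 3 → ℝ} {A : Finset Ed} {k : ℕ}

/-- **The mean flux is `o(k)`.** -/
theorem nf_small (hQ : Kit Q) (h : RSW Q) (t : Fin 3 → ℝ) {ε : ℝ} (hε : 0 < ε) : ∃ k0 : ℕ, 1 ≤ k0 ∧
    ∀ k : ℕ, k0 ≤ k → ∀ (K R : ℤ) (u : ℤ × ℤ) (m x : ℤ), 1 ≤ K → 4 * (k : ℤ) ≤ R → u.2 = 0 →
    |x - u.1| ≤ R → |Ex Q (HR K R u) eta0 (NF t (HR K R u) (pR K R u) u m k x)| ≤ ε * k := by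
  have hQ_pos := hQ.pos
  classical
  have hQ0 : 0 < Q := by linarith
  have hT0 := T0_nonneg t
  obtain ⟨n, hn⟩ := exists_nat_gt (8 * T0 t / ε + 1)
  have hn1 : (1 : ℝ) < n := by
    have : 0 ≤ 8 * T0 t / ε := by positivity
    linarith
  have hn1' : 1 < n := by exact_mod_cast hn1
  obtain ⟨C, hC, hm⟩ := m2c_of hQ h (2 * n)
  obtain ⟨k1, hk1⟩ := exists_nat_gt (2 * T0 t * (C + 1) / ε)
  refine ⟨max n k1, by omega, fun k hk K R u m x hK hkR hu hx => ?_⟩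
  have hkn : n ≤ k := le_trans (le_max_left _ _) hk
  have hkk : k1 ≤ k := le_trans (le_max_right _ _) hk
  have hR1 : 1 ≤ R := by omega
  have E := gq_HR (K := K) (R := R) (u := u) hK hR1
  have hL8 := E.geo.L8
  set d : ℤ := (k : ℤ) / n with hd
  have hn0 : (0 : ℤ) < n := by omega
  have hd1 : 1 ≤ d := by
    rw [hd, Int.le_ediv_iff_mul_le hn0]
    omega
  have hdk : d * n ≤ k := Int.ediv_mul_le _ (by omega)
  have hkd : (k : ℤ) < (d + 1) * n := Int.lt_ediv_add_one_mul_self _ hn0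
  have hdk' : d ≤ k := by nlinarith
  have hL : (k : ℤ) ≤ ((2 * n : ℕ) : ℤ) * d := by
    push_cast
    nlinarith
  have hxu : nm (((x, 0) : ℤ × ℤ) - u) ≤ R := by
    rw [nm_le']
    simp only [Prod.fst_sub, Prod.snd_sub, hu]
    rw [abs_le] at hx
    omega
  have hF : Fl (HR K R u) (x, 0) (k + 1) := E.geo.fl' hxu hu.symm (by omega)
  have hF2 : Fl (HR K R u) (x, 0) (4 * k) := E.geo.fl' hxu hu.symm (by omega)
  have hD : ∀ v : ℤ × ℤ, x ≤ v.1 → v.1 ≤ x + d + 2 → 0 ≤ v.2 → v.2 ≤ k → v ∈ HR K R u := by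
    intro v h1 h2 h3 h4
    refine (hF2 v ?_).2 h3
    rw [nm_le']
    simp only [Prod.fst_sub, Prod.snd_sub]
    omega
  have h1 := hm.use1 (c := (x, 0)) (L := k) (d := d) (G := fun _ => 1) hQ0 E (by
    have h5 : 8 * R ≤ 8 * K * R := hL8
    omega) hd1 (by omega) hL (fun _ => zero_le_one) (A := HR K R u) (fun v hv _ => hv)
    (fun _ _ _ => rfl)
  simp only [one_mul, Ex_const hQ0, mul_one] at h1
  have h2 : |Ex Q (HR K R u) eta0 (NF t (HR K R u) (pR K R u) u m k x)| ≤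
      T0 t * (C + (4 * d + 1)) := by
    calc _ ≤ Ex Q (HR K R u) eta0 (fun ω => |NF t (HR K R u) (pR K R u) u m k x ω|) :=
          abs_Ex_le hQ0 _
      _ ≤ Ex Q (HR K R u) eta0 (fun ω => T0 t * ((Bg (HR K R u) (x, 0) k d ω).card +
            (4 * d + 1))) := Ex_mono hQ0 fun S _ => by
          have h3 := card_dl (p := pR K R u) (ω := cf (HR K R u) eta0 S) hd1 (by omega) hF hD
            (Nr (HR K R u) u m)
          unfold NF
          exact SP_le (fun A => abs_dl_le) h3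
      _ = T0 t * (Ex Q (HR K R u) eta0 (fun ω => ((Bg (HR K R u) (x, 0) k d ω).card : ℝ)) +
            (4 * d + 1)) := by rw [Ex_mul_left, Ex_add, Ex_const hQ0]
      _ ≤ T0 t * (C + (4 * d + 1)) :=
          mul_le_mul_of_nonneg_left (by linarith) hT0
  refine h2.trans ?_
  have hkr : (k1 : ℝ) ≤ k := by exact_mod_cast hkk
  have e1 : T0 t * (C + 1) ≤ ε / 2 * k := by
    have h5 : 2 * T0 t * (C + 1) / ε < k := lt_of_lt_of_le hk1 hkr
    rw [div_lt_iff₀ hε] at h5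
    linarith
  have e2 : T0 t * (4 * d) ≤ ε / 2 * k := by
    have h5 : (d : ℝ) * n ≤ k := by exact_mod_cast hdk
    have h6 : 8 * T0 t / ε < n := by linarith
    rw [div_lt_iff₀ hε] at h6
    have h7 : (0 : ℝ) ≤ d := by exact_mod_cast (by omega : 0 ≤ d)
    calc T0 t * (4 * d) = (8 * T0 t) * d / 2 := by ring
      _ ≤ (n * ε) * d / 2 := by
          have := mul_le_mul_of_nonneg_right h6.le h7
          linarith
      _ = ε / 2 * (d * n) := by ring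
      _ ≤ ε / 2 * k := mul_le_mul_of_nonneg_left h5 (by positivity)
  linarith

/-- **The mean of the stagger.** -/
theorem ns_ref {Cm C2 C3 α c₀ C₀ : ℝ} {K₀ : ℤ} (P : Cst Q C3 α c₀ C₀ K₀) (hCm : 0 < Cm)
    (hC2 : 0 < C2) (hm2 : M2c Q Cm (1200 * K).toNat) (h2 : I2c Q C2) (hK : 1 ≤ K)
    (t : Fin 3 → ℝ) : ∃ C : ℝ, 0 ≤ C ∧ ∀ (R : ℤ) (u : ℤ × ℤ) (m x : ℤ) (k : ℕ), u.2 = 0 →
    5 ≤ k → |x - u.1| + k ≤ m → m ≤ R → |x - u.1| + R / 2 ≤ R → K₀ * (k + 1) ≤ R / 2 →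
    |Ex Q (HR K R u) eta0 (NS t (HR K R u) (pR K R u) u m x) - sref Q t K (R / 2) k 0| ≤
      C * (1 / k + ((k : ℝ) / R) ^ (1 + c₀)) := by
  classical
  have hQ0 : 0 < Q := P.hQ.pos
  have hT0 := T0_nonneg t
  have hc := P.hc
  have hC := P.hC
  refine ⟨T0 t * (5 * Cm * C2) + C₀ * 6 ^ (1 + c₀) * T0 t, by positivity, ?_⟩
  intro R u m x k hu hk hxm hmR hxR hKR
  have hK0 := P.hK
  have hkK : (k : ℤ) + 1 ≤ K₀ * (k + 1) := by nlinarith
  have hR1 : 1 ≤ R := by omega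
  have hR2 : 1 ≤ R / 2 := by omega
  have E := gq_HR (K := K) (R := R) (u := u) hK hR1
  have hxa := abs_nonneg (x - u.1)
  have hxu : nm (((x, 0) : ℤ × ℤ) - u) ≤ |x - u.1| := by
    rw [nm_le']
    simp only [Prod.fst_sub, Prod.snd_sub, hu]
    have h1 := le_abs_self (x - u.1)
    have h3 := neg_abs_le (x - u.1)
    omega
  have hxD : (x, (0 : ℤ)) ∈ HR K R u := by
    have hL8 := E.geo.L8
    refine (E.geo.fl _ (by omega)).2 ?_
    rw [hu]
  -- the class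
  set N1 := SP t (HR K R u) (pR K R u) (Nr (HR K R u) (x, 0) k) (sx (HR K R u) (pR K R u) x)
    with hN1
  have hcls : ∀ A, Nr (HR K R u) (x, 0) k A → Nr (HR K R u) u m A := by
    intro A hA
    refine hA.mono ?_
    omega
  have b1 : |Ex Q (HR K R u) eta0 (NS t (HR K R u) (pR K R u) u m x) -
      Ex Q (HR K R u) eta0 N1| ≤ T0 t * (5 * Cm * C2) * (1 / k) := by
    rw [← Ex_sub]
    have e1 : ∀ ω, NS t (HR K R u) (pR K R u) u m x ω - N1 ω =
        SP t (HR K R u) (pR K R u) (fun A => Nr (HR K R u) u m A ∧ ¬ Nr (HR K R u) (x, 0) k A)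
          (sx (HR K R u) (pR K R u) x) ω := by
      intro ω
      unfold NS
      rw [SP_split hcls, hN1]
      ring
    simp only [e1]
    have h3 := far_mom (t := t) (x := (x, 0)) (k := 1) (r := k)
      (P := fun A => Nr (HR K R u) u m A ∧ ¬ Nr (HR K R u) (x, 0) k A)
      (g := sx (HR K R u) (pR K R u) x) hQ0 hCm hC2 hm2 h2 E le_rfl (by omega) hu.symm (by omega)
      (fun A => abs_sx _ _ _ _) (fun ω A hA hP hg => by
        refine ⟨not_not.1 hP.2, ?_⟩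
        obtain ⟨e, he, h4, h5⟩ := sx_vis hA hxD hg
        exact ⟨e, he, h4, by omega⟩) (G := fun _ => 1) (fun _ => zero_le_one) (fun _ _ _ => rfl)
    simp only [one_mul, Ex_const hQ0, mul_one] at h3
    refine (abs_Ex_le hQ0 _).trans (h3.trans (le_of_eq ?_))
    push_cast
    ring
  -- the domain
  have E' : Geo K (R / 2) (HR K R u) (pR K R u) (x, 0) :=
    E.geo.sub (by omega) hu.symm hR2
  have E2 := gq_HR (K := K) (R := R / 2) (u := ((x, 0) : ℤ × ℤ)) hK hR2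
  have O : Obs K (R / 2) (x, 0) (x, 0) k (fun D => Nr D (x, 0) k) (fun D p => sx D p x) :=
    { near := fun D A h => h
      same := fun D1 D2 A h => h.nr
      intr := intr_sx x }
  have hnn := nm_self ((x, 0) : ℤ × ℤ)
  have e2 : N1 = SP t (HR K (R / 2) (x, 0)) (pR K (R / 2) (x, 0))
      (Nr (HR K (R / 2) (x, 0)) (x, 0) k)
      (sx (HR K (R / 2) (x, 0)) (pR K (R / 2) (x, 0)) x) := O.eqH E' (by omega)
  have hloc : Loc (hB (x, 0) k) N1 := O.loc E' (by omega) rfl _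
  have hsref : sref Q t K (R / 2) k 0 = Ex Q (HR K (R / 2) (x, 0)) eta0 N1 := by
    rw [sref_eq hQ0 hK hR2 (by omega) (by omega) 0 x, e2]
    rfl
  have hL8 := E'.L8
  have hflt1 : FltQ (HR K R u) eta0 (x, 0) (R / 2) false false :=
    flt_shift E.fl (by have := E.geo.L8; omega) hu.symm
  have hflt2 : FltQ (HR K (R / 2) (x, 0)) eta0 (x, 0) (R / 2) false false :=
    flt_shift E2.fl (by omega) rfl
  have hrel := (P.hrel (x, 0) (k + 1) (R / 2) (by omega) hKR (HR K R u) eta0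
    (flt_side hflt1 le_rfl) good_eta0 N1 (fun ω ω' h => hloc ω ω' fun v hv => h v (HS_of_hB hv))).1
    (HR K (R / 2) (x, 0)) eta0 (flt_side hflt2 le_rfl) good_eta0
  have hN1le : Ex Q (HR K R u) eta0 (fun ω => |N1 ω|) ≤ T0 t := by
    rw [← Ex_const (D := HR K R u) (η := eta0) hQ0 (T0 t)]
    exact Ex_mono hQ0 fun S _ => sx_one x _ _
  have hN10 : 0 ≤ Ex Q (HR K R u) eta0 (fun ω => |N1 ω|) := Ex_nonneg hQ0 fun _ _ => abs_nonneg _
  have hR0 : (0 : ℝ) < R := by exact_mod_cast (by omega : 0 < R)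
  have hR20 : (0 : ℝ) < ((R / 2 : ℤ) : ℝ) := by exact_mod_cast (by omega : 0 < R / 2)
  have h3 : (R : ℝ) ≤ 3 * ((R / 2 : ℤ) : ℝ) := by exact_mod_cast (by omega : R ≤ 3 * (R / 2))
  have hkr : (1 : ℝ) ≤ k := by exact_mod_cast (by omega : 1 ≤ k)
  have hfrac : (((k : ℤ) + 1 : ℤ) : ℝ) / ((R / 2 : ℤ) : ℝ) ≤ 6 * ((k : ℝ) / R) := by
    rw [div_le_iff₀ hR20]
    have e3 : 6 * ((k : ℝ) / R) * ((R / 2 : ℤ) : ℝ) = 2 * k * (3 * ((R / 2 : ℤ) : ℝ) / R) := by
      field_simp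
      ring
    rw [e3]
    have h5 : 1 ≤ 3 * ((R / 2 : ℤ) : ℝ) / R := by rw [le_div_iff₀ hR0]; linarith
    push_cast
    nlinarith
  have b2 : |Ex Q (HR K R u) eta0 N1 - sref Q t K (R / 2) k 0| ≤
      C₀ * 6 ^ (1 + c₀) * T0 t * ((k : ℝ) / R) ^ (1 + c₀) := by
    rw [hsref]
    refine hrel.trans ?_
    calc C₀ * ((((k : ℤ) + 1 : ℤ) : ℝ) / ((R / 2 : ℤ) : ℝ)) ^ (1 + c₀) *
          Ex Q (HR K R u) eta0 (fun ω => |N1 ω|)
        ≤ C₀ * (6 * ((k : ℝ) / R)) ^ (1 + c₀) * T0 t := by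
          refine mul_le_mul (mul_le_mul_of_nonneg_left (Real.rpow_le_rpow ?_ hfrac
            (by linarith)) hC.le) hN1le hN10 (by positivity)
          push_cast
          positivity
      _ = _ := by
          rw [Real.mul_rpow (by norm_num) (by positivity)]
          ring
  have q1 : (0 : ℝ) ≤ 1 / k := by positivity
  have q2 : 0 ≤ ((k : ℝ) / R) ^ (1 + c₀) := by positivity
  have q3 : 0 ≤ T0 t * (5 * Cm * C2) := by positivity
  have q4 : 0 ≤ C₀ * 6 ^ (1 + c₀) * T0 t := by positivity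
  calc |Ex Q (HR K R u) eta0 (NS t (HR K R u) (pR K R u) u m x) - sref Q t K (R / 2) k 0|
      = |(Ex Q (HR K R u) eta0 (NS t (HR K R u) (pR K R u) u m x) - Ex Q (HR K R u) eta0 N1) +
          (Ex Q (HR K R u) eta0 N1 - sref Q t K (R / 2) k 0)| := by congr 1; ring
    _ ≤ T0 t * (5 * Cm * C2) * (1 / k) +
          C₀ * 6 ^ (1 + c₀) * T0 t * ((k : ℝ) / R) ^ (1 + c₀) :=
        (abs_add_le _ _).trans (add_le_add b1 b2)
    _ ≤ _ := by nlinarith [mul_nonneg q3 q2, mul_nonneg q4 q1]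

end Vale.Agent.P167.N.H365.NQ
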