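import Vale.Agent.P167.N.Kit
import Vale.Agent.P167.N.H365.Q.Core3
import Vale.Agent.P167.N.H365.Q.Red
import Vale.Agent.P167.N.H365.Q.Ref
import Vale.Agent.P167.H365.Q.Red2

/-! generated from Vale.Agent.P167.H365.Q.Red2 (q < 1 port) -/

set_option autoImplicit false

namespace Vale.Agent.P167.N.H365.NQ

open Vale.Agent.P167.H365.NQ Vale.Agent.P167.H365

open Finset Vale.Agent.P167.BR Vale.Agent.P167.FK Vale.Agent.P167.FKA

open Vale.Agent.P167.H318 (st ex J St Lo CoConn)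

open Vale.Agent.P167.H562.QM (FltQ)

open Vale.Agent.P167.H166 (bxx mem_bxx)

open Vale.Agent.P167.H192.Q (FlatA I2Q I3Q)

variable {Q : ℝ} {D : Finset (ℤ × ℤ)} {η : Cfg} {p u y : ℤ × ℤ} {a m R r K W x d : ℤ} {ω : Cfg}
  {w w' : Finset Ed → ℝ} {t : Fin 3 → ℝ} {A : Finset Ed} {ψ : ℤ → ℝ} {k : ℕ} {M c : ℝ}

/-- The inputs with fixed constants. -/
structure Inp (Q : ℝ) (K : ℤ) (Cm C2 γ Ce γb Cb C3 α c₀ C₀ : ℝ) (K₀ : ℤ) : Prop where
  hQ : Kit Q
  rsw : RSW Q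
  S : Cs Q K Cm C2 γ Ce
  T : Cf Q C3 α
  P : Cst Q C3 α c₀ C₀ K₀
  γb0 : 0 < γb
  Cb0 : 0 < Cb
  bl : BL1 Q γb Cb

/-- The reference mean in a cell. -/
theorem nC_bd {Cm C2 γ Ce γb Cb C3 α c₀ C₀ : ℝ} {K₀ : ℤ}
    (H : Inp Q K Cm C2 γ Ce γb Cb C3 α c₀ C₀ K₀) (t : Fin 3 → ℝ) (Cc : ℝ) (hCc : 0 ≤ Cc)
    {ε : ℝ} (hε : 0 < ε) : ∃ (k0 : ℕ) (n : ℤ), 12 ≤ k0 ∧ 1 ≤ n ∧ ∀ (k : ℕ) (R m v x : ℤ) (c : ℝ),
    k0 ≤ k → n * k ≤ R → |c| ≤ Cc * k → |x - v| + k ≤ m → 2 * m ≤ R →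
    |nC Q t K R m k c v x - -(c * sref Q t K (R / 2) k 0)| ≤ ε * k := by
  obtain ⟨k1, hk1, hnf⟩ := nf_small H.hQ H.rsw t (half_pos hε)
  obtain ⟨Cn, hCn, hns⟩ := ns_ref H.P H.S.Cm0 H.S.C20 H.S.m2 H.S.i2 H.S.hK t
  obtain ⟨k2, hk2⟩ := exists_nat_gt (4 * (Cc * Cn) / ε)
  have hc0 := H.P.hc
  have hK0 := H.P.hK
  refine ⟨max 12 (max k1 k2), max (4 * K₀) (max 4 k2), le_max_left _ _, ?_, ?_⟩
  · exact le_trans (by norm_num) (le_trans (le_max_left _ _) (le_max_right _ _))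
  intro k R m v x c hk hkR hc hxm hmR
  have hk12 : 12 ≤ k := le_trans (le_max_left _ _) hk
  have hkk1 : k1 ≤ k := le_trans (le_trans (le_max_left _ _) (le_max_right _ _)) hk
  have hkk2 : k2 ≤ k := le_trans (le_trans (le_max_right _ _) (le_max_right _ _)) hk
  have hk0 : (0 : ℤ) ≤ k := by omega
  have n1 : 4 * K₀ * (k : ℤ) ≤ R :=
    le_trans (mul_le_mul_of_nonneg_right (le_max_left _ _) hk0) hkR
  have n2 : 4 * (k : ℤ) ≤ R := le_trans (mul_le_mul_of_nonneg_right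
    (le_trans (le_max_left _ _) (le_max_right _ _)) hk0) hkR
  have n3 : (k2 : ℤ) * (k : ℤ) ≤ R := le_trans (mul_le_mul_of_nonneg_right
    (le_trans (le_max_right _ _) (le_max_right _ _)) hk0) hkR
  have hxa := abs_nonneg (x - v)
  have hR0 : (0 : ℝ) < R := by exact_mod_cast (by omega : 0 < R)
  have hkr : (1 : ℝ) ≤ k := by exact_mod_cast (by omega : 1 ≤ k)
  have b1 := hnf k hkk1 K R (v, 0) m x H.S.hK n2 rfl (by show |x - v| ≤ R; omega)
  have hK0k : K₀ * ((k : ℤ) + 1) ≤ R / 2 := by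
    rw [Int.le_ediv_iff_mul_le (by norm_num)]
    have : K₀ * 1 ≤ K₀ * (k : ℤ) := mul_le_mul_of_nonneg_left (by omega) (by omega)
    nlinarith
  have b2 := hns R (v, 0) m x k rfl (by omega) hxm (by omega)
    (by show |x - v| + R / 2 ≤ R; omega) hK0k
  have hk2r : (k2 : ℝ) ≤ k := by exact_mod_cast hkk2
  have hn3r : (k2 : ℝ) * k ≤ R := by exact_mod_cast n3
  have hCC : 0 ≤ Cc * Cn := mul_nonneg hCc hCn
  have hk2' : 4 * (Cc * Cn) ≤ k2 * ε := by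
    rw [div_lt_iff₀ hε] at hk2
    exact hk2.le
  have hk20 : (0 : ℝ) < k2 := lt_of_le_of_lt (by positivity) hk2
  have c1 : Cc * Cn * (1 / k) ≤ ε / 4 := by
    rw [mul_one_div, div_le_iff₀ (by linarith)]
    nlinarith
  have hfr : (k : ℝ) / R ≤ 1 / k2 := by
    rw [div_le_div_iff₀ hR0 hk20]
    linarith
  have hfr1 : (k : ℝ) / R ≤ 1 := by
    rw [div_le_one hR0]
    exact_mod_cast (by omega : (k : ℤ) ≤ R)
  have hfr0 : 0 < (k : ℝ) / R := by positivity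
  have c2 : Cc * Cn * ((k : ℝ) / R) ^ (1 + c₀) ≤ ε / 4 := by
    have h1 : ((k : ℝ) / R) ^ (1 + c₀) ≤ (k : ℝ) / R := by
      have := Real.rpow_le_rpow_of_exponent_ge hfr0 hfr1 (show (1 : ℝ) ≤ 1 + c₀ by linarith)
      rwa [Real.rpow_one] at this
    calc Cc * Cn * ((k : ℝ) / R) ^ (1 + c₀) ≤ Cc * Cn * (1 / k2) :=
          mul_le_mul_of_nonneg_left (h1.trans hfr) hCC
      _ ≤ ε / 4 := by
          rw [mul_one_div, div_le_iff₀ hk20]
          linarith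
  unfold nC
  generalize Ex Q (HR K R (v, 0)) eta0
    (NF t (HR K R (v, 0)) (pR K R (v, 0)) (v, 0) m k x) = f at b1 ⊢
  generalize Ex Q (HR K R (v, 0)) eta0
    (NS t (HR K R (v, 0)) (pR K R (v, 0)) (v, 0) m x) = s at b2 ⊢
  generalize sref Q t K (R / 2) (k : ℤ) 0 = s0 at b2 ⊢
  calc |f - c * s - -(c * s0)| = |f - c * (s - s0)| := by congr 1; ring
    _ ≤ |f| + |c| * |s - s0| := (abs_sub _ _).trans (by rw [abs_mul])
    _ ≤ ε / 2 * k + Cc * k * (Cn * (1 / k + ((k : ℝ) / R) ^ (1 + c₀))) :=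
        add_le_add b1 (mul_le_mul hc b2 (abs_nonneg _) (by positivity))
    _ = ε / 2 * k + k * (Cc * Cn * (1 / k) + Cc * Cn * ((k : ℝ) / R) ^ (1 + c₀)) := by ring
    _ ≤ ε / 2 * k + k * (ε / 4 + ε / 4) :=
        add_le_add le_rfl (mul_le_mul_of_nonneg_left (add_le_add c1 c2) (by linarith))
    _ = ε * k := by ring

/-- **Q-NRED**, with fixed constants. -/
theorem nred_inp {Cm C2 γ Ce γb Cb C3 α c₀ C₀ : ℝ} {K₀ : ℤ}
    (H : Inp Q K Cm C2 γ Ce γb Cb C3 α c₀ C₀ K₀) (hS : SYMQ Q) (t : Fin 3 → ℝ) :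
    NREDQ Q t K := by
  classical
  intro ε hε
  obtain ⟨C', hC', hcell⟩ := cellQ H.S H.T H.γb0 H.Cb0 H.bl t
  obtain ⟨Cs', hSym⟩ := hS
  set Cc : ℝ := |Cs'| with hCcd
  have hCc : 0 ≤ Cc := abs_nonneg _
  set A : ℝ := C' * (1 + Cc) with hAd
  have hA : 0 ≤ A := by positivity
  obtain ⟨k0, n, hk0, hn, hnC⟩ := nC_bd H t Cc hCc hε
  obtain ⟨N1, hN1, hN1'⟩ := exists_N H.S.γ0 (ε / (8 * A + 1)) (by positivity) 4
  obtain ⟨N2, hN2, hN2'⟩ := exists_N H.T.α0 (ε / (32 * A * N1 + 1)) (by positivity) 5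
  set ε1 : ℝ := ε / (32 * A * N1 + 1) with hε1
  have hε1p : 0 < ε1 := by positivity
  obtain ⟨K1, hS1⟩ := hSym ε1 hε1p
  obtain ⟨k2, hk2⟩ := exists_nat_gt (Cc / ε1)
  have hN1r : (4 : ℝ) ≤ N1 := by exact_mod_cast hN1
  have hN2r : (5 : ℝ) ≤ N2 := by exact_mod_cast hN2
  set K2 : ℤ := max K1 n with hK2
  have hQr : (32 : ℝ) ≤ (max 32 K2 : ℤ) := by exact_mod_cast le_max_left 32 K2
  refine ⟨1 / (2 * (N1 * N2) * (max 32 K2 : ℤ)), max k0 k2, by positivity,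
    fun R k hk hkR => ?_⟩
  have hkk0 : k0 ≤ k := le_trans (le_max_left _ _) hk
  have hkk2 : k2 ≤ k := le_trans (le_max_right _ _) hk
  have hk12 : 12 ≤ k := by omega
  have hk1 : 1 ≤ k := by omega
  have hkr : (1 : ℝ) ≤ k := by exact_mod_cast hk1
  obtain ⟨W, hWpos, hK1W, h32, hw1r, hmR4, hwN⟩ := scales hN1 hN2 hk1 hkR
  have hR0 : (0 : ℝ) < R := by
    by_contra hcon
    push Not at hcon
    have : (1 / (2 * (N1 * N2) * (max 32 K2 : ℤ)) : ℝ) * R ≤ 0 :=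
      mul_nonpos_of_nonneg_of_nonpos (by positivity) hcon
    linarith
  have hR1 : 1 ≤ R := by
    have : (0 : ℤ) < R := by exact_mod_cast hR0
    omega
  have hk0' : (0 : ℤ) ≤ k := by omega
  have hK1W' : K1 * k ≤ W := le_trans (mul_le_mul_of_nonneg_right (le_max_left _ _) hk0') hK1W
  have hnW : n * k ≤ W := le_trans (mul_le_mul_of_nonneg_right (le_max_right _ _) hk0') hK1W
  obtain ⟨c, hcC, hSc⟩ := hS1 k W hk1 hK1W'
  have hc : |c| ≤ Cc * k := hcC.trans (mul_le_mul_of_nonneg_right (le_abs_self _) (by linarith))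
  have hWr : (1 : ℝ) ≤ W := by exact_mod_cast hWpos
  generalize hm : (N2 : ℤ) * W = m at hmR4
  have hmr : (m : ℝ) = N2 * W := by rw [← hm]; push_cast; ring
  have hm5 : 5 * W ≤ m := by
    have h5 : (5 : ℤ) ≤ N2 := by exact_mod_cast hN2
    rw [← hm]
    exact mul_le_mul_of_nonneg_right h5 (by omega)
  have hWR : W ≤ R := by omega
  have hm0 : (0 : ℝ) < m := by exact_mod_cast (by omega : 0 < m)
  refine ⟨nX Q t K R m k c W, -(c * sref Q t K (R / 2) k 0), c, fun x => ?_, ?_⟩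
  · refine nX_bd hWpos fun j hj => hnC k R m (j * W) x c hkk0 (hnW.trans hWR) hc ?_ (by omega)
    omega
  intro D η p w w' M hco a b φ hab hE hφ1 hφl hφs
  have E0 := hE a (mem_Icc.2 ⟨le_rfl, hab⟩)
  have hM := E0.M0 H.S.hQ0
  -- the ratios
  have r1 : ((m : ℝ) / R) ^ γ ≤ ε / (8 * A + 1) := by
    refine le_trans (Real.rpow_le_rpow (by positivity) ?_ H.S.γ0.le) hN1'
    rw [div_le_div_iff₀ hR0 (by linarith), hmr, one_mul]
    linarith
  have r4 : Cc / W ≤ ε1 := by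
    have h1 : (k2 : ℝ) ≤ W := by
      have : (k2 : ℤ) ≤ W := by omega
      exact_mod_cast this
    rw [div_le_iff₀ (by linarith)]
    rw [div_lt_iff₀ hε1p] at hk2
    nlinarith
  have r3 : ((W : ℝ) / m) ^ (1 + α) + (ε1 + Cc / W) * ((W : ℝ) / m) ≤ 1 / N2 * (3 * ε1) := by
    have r2 : (W : ℝ) / m = 1 / N2 := by
      rw [hmr]
      field_simp
    rw [r2, Real.rpow_add (by positivity), Real.rpow_one]
    have h1 : (1 / (N2 : ℝ)) * (1 / (N2 : ℝ)) ^ α ≤ 1 / N2 * ε1 :=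
      mul_le_mul_of_nonneg_left hN2' (by positivity)
    have h2 : (ε1 + Cc / W) * (1 / (N2 : ℝ)) ≤ (2 * ε1) * (1 / N2) :=
      mul_le_mul_of_nonneg_right (by linarith) (by positivity)
    linarith
  set V := Ex Q D η (XW D w) with hV
  have hcells : ∀ j ∈ Icc (a / W + 1) (b / W), |∑ x ∈ Icc a b, pj φ W j x *
      (GG Q D η p w w' k c x - nC Q t K R m k c (j * W) x * V)| ≤
      A * M * k * ((W : ℝ) / R * (ε / (8 * A + 1)) + 1 / N2 * (3 * ε1)) := by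
    intro j hj
    refine (hcell ε1 c Cc K1 k W hε1p.le hSc hc hK1W' hk12 h32 R D η p w w' M (j * W) m
      (pj φ W j) (Icc a b) (hE _ (cells_mem hWpos hj)) hco (pj_psi hWpos hWR hφ1 hφl j) hm5 hmR4
      fun x hx => ?_).trans ?_
    · have := hφs x fun h => hx (pj_zero h)
      rw [mem_Icc]
      omega
    · refine mul_le_mul_of_nonneg_left (add_le_add ?_ r3) (by positivity)
      exact mul_le_mul_of_nonneg_left r1 (by positivity)
  have hcard := cells_card hWpos hab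
  have hdec := pj_sum hWpos hWR hφs (fun x => GG Q D η p w w' k c x -
    nX Q t K R m k c W x * V)
  have hsn := sum_nC (Q := Q) (t := t) (K := K) (m := m) (k := k) (c := c) hWpos hWR hφs V
  generalize hJc : Icc (a / W + 1) (b / W) = Jc at hcells hcard hdec hsn
  have hdec2 : ∑ x ∈ Icc a b, φ x * (GG Q D η p w w' k c x - nX Q t K R m k c W x * V) =
      2 * ∑ j ∈ Jc, ∑ x ∈ Icc a b, pj φ W j x *
        (GG Q D η p w w' k c x - nC Q t K R m k c (j * W) x * V) := by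
    rw [hdec]
    congr 1
    simp only [mul_sub, Finset.sum_sub_distrib]
    rw [hsn]
  set B : ℝ := ((b - a : ℤ) : ℝ) / R + 1 with hB
  have hba : (0 : ℝ) ≤ ((b - a : ℤ) : ℝ) := by exact_mod_cast (by omega : 0 ≤ b - a)
  have hB0 : 0 ≤ B := by positivity
  have c1 : (Jc.card : ℝ) * (W / R) ≤ B := by
    rw [← mul_div_assoc, div_le_iff₀ hR0]
    have e3 : B * R = ((b - a : ℤ) : ℝ) + R := by
      rw [hB, add_mul, div_mul_cancel₀ _ hR0.ne', one_mul]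
    rw [e3]
    have : (W : ℝ) ≤ R := by exact_mod_cast hWR
    linarith
  have c2 : (Jc.card : ℝ) * (1 / N2) ≤ 2 * N1 * B := by
    have e4 : (1 : ℝ) ≤ 2 * (N1 * N2) * (W / R) := by
      rw [← mul_div_assoc, le_div_iff₀ hR0, one_mul]
      exact hwN
    calc (Jc.card : ℝ) * (1 / N2) = (Jc.card : ℝ) * (1 / N2) * 1 := by ring
      _ ≤ (Jc.card : ℝ) * (1 / N2) * (2 * (N1 * N2) * (W / R)) :=
          mul_le_mul_of_nonneg_left e4 (by positivity)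
      _ = 2 * N1 * ((Jc.card : ℝ) * (W / R)) := by
          have : (N2 : ℝ) ≠ 0 := by linarith
          field_simp
      _ ≤ 2 * N1 * B := mul_le_mul_of_nonneg_left c1 (by positivity)
  have e5 : ∑ x ∈ Icc a b, φ x * (Ex Q D η (XTW D p w w' (x, k)) -
      Ex Q D η (XTW D p w w' (x, 0)) - nX Q t K R m k c W x * Ex Q D η (XW D w) -
      c * Ex Q D η (SW D p w w' x)) =
      ∑ x ∈ Icc a b, φ x * (GG Q D η p w w' k c x - nX Q t K R m k c W x * V) := by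
    refine Finset.sum_congr rfl fun x _ => ?_
    unfold GG
    rw [hV]
    ring
  rw [e5, hdec2, abs_mul, abs_two]
  calc 2 * |∑ j ∈ Jc, ∑ x ∈ Icc a b, pj φ W j x *
        (GG Q D η p w w' k c x - nC Q t K R m k c (j * W) x * V)|
      ≤ 2 * ∑ _j ∈ Jc, A * M * k * ((W : ℝ) / R * (ε / (8 * A + 1)) + 1 / N2 * (3 * ε1)) :=
        mul_le_mul_of_nonneg_left ((Finset.abs_sum_le_sum_abs _ _).trans
          (Finset.sum_le_sum hcells)) (by norm_num)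
    _ = 2 * (Jc.card * (A * M * k * ((W : ℝ) / R * (ε / (8 * A + 1)) + 1 / N2 * (3 * ε1)))) := by
        rw [Finset.sum_const, nsmul_eq_mul]
    _ ≤ ε * k * ((M + 1) * B) := cells_sum hA hM (by linarith) hε (by linarith) hB0 hε1 c1
        (by positivity) c2 le_rfl

end Vale.Agent.P167.N.H365.NQ
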