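import Vale.Agent.P167.N.Kit
import Vale.Agent.P167.N.H192.Q.Arm3
import Vale.Agent.P167.N.H365.Q.Core3
import Vale.Agent.P167.N.H365.Q.Mom
import Vale.Agent.P167.N.H365.Q.Obs
import Vale.Agent.P167.N.H365.Q.Red2
import Vale.Agent.P167.N.H685.Q.Fin
import Vale.Agent.P167.N.QM.Blk
import Vale.Agent.P167.H365.Q.Fin

/-!
# P167, `q < 1`, block Q-NRED: the end

As in `Vale.Agent.P167.H365.Q.Fin`.
-/

set_option autoImplicit false

namespace Vale.Agent.P167.N.H365.NQ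

open Vale.Agent.P167.H365.NQ Vale.Agent.P167.H365

open Finset Vale.Agent.P167.BR Vale.Agent.P167.FK Vale.Agent.P167.FKA

open Vale.Agent.P167.QM (Side HS)

/-- **Q-NRED** from the universality of the displacement. -/
theorem nredq_of {Q : ℝ} (hQ : Kit Q) (hR : RSW Q) (_hS : Vale.Agent.P167.H192.Q.SRSW Q) (hA : RelA Q)
    (hY : SYMQ Q) (t : Fin 3 → ℝ) {K : ℤ} (hK : 1 ≤ K) : NREDQ Q t K := by
  have hQ_pos := hQ.pos
  have hQ0 : 0 < Q := by linarith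
  obtain ⟨C2, hC2, h2⟩ := i2c_of (H192.Q.i2q hQ)
  obtain ⟨C3, α, hC3, hα, h3⟩ := i3c_of (H192.Q.i3q hQ)
  obtain ⟨K0, c0, C0, hK0, hc0, hC0, hrel⟩ := hA
  have P : Cst Q C3 α c0 C0 K0 :=
    { hQ := hQ
      hα := hα
      hC3 := hC3
      h3 := h3
      hK := hK0
      hc := hc0
      hC := hC0
      hrel := fun z d R hd hR D η hD hη F hF => hrel 0 false z d R hd hR D η hD hη F hF }
  obtain ⟨γ, Ce, hγ, hCe, herr⟩ := er_bd P
  obtain ⟨Cm, hCm, hm⟩ := m2c_of hQ hR (1200 * K).toNat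
  obtain ⟨αA, CA, hαA, hCA, hArm, -⟩ := hQ.arm
  obtain ⟨γb, Cb, hγb, hCb, hbl⟩ := QM.block_L1 hQ hαA hCA hArm
  exact nred_inp
    { hQ := hQ
      rsw := hR
      S := ⟨hQ0, hK, hCm, hC2, hγ, hCe, hm, h2, herr⟩
      T := ⟨hC3, hα, h3⟩
      P := P
      γb0 := hγb
      Cb0 := hCb
      bl := hbl } hY t

/-- **Q-NRED** for every `0 < Q < 1` with RSW, strong RSW and relative mixing. -/
theorem nredq_rel {Q : ℝ} (hQ : Kit Q) (hR : RSW Q) (hS : Vale.Agent.P167.H192.Q.SRSW Q) (hA : RelA Q)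
    (t : Fin 3 → ℝ) {K : ℤ} (hK : 1 ≤ K) : NREDQ Q t K :=
  nredq_of hQ hR hS hA (H685.Q.symq_all hQ hR hS) t hK

end Vale.Agent.P167.N.H365.NQ
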