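import Vale.Agent.P167.N.Kit
import Vale.Agent.P167.N.KitQ
import Vale.Agent.P167.N.H365.Q.Fin
import Vale.Agent.P167.N.QM.ConsFin

/-!
# P167, `q < 1`, block Q-NRED, `√q = 2 cos μ`
-/

set_option autoImplicit false

namespace Vale.Agent.P167.N.H365.NQ

open Vale.Agent.P167.H365.NQ Vale.Agent.P167.H365

open Finset Vale.Agent.P167.BR Vale.Agent.P167.FK Vale.Agent.P167.FKA

/-- **Q-NRED** for every `0 < Q < 1`. -/
theorem nredq {Q : ℝ} (hQ : Kit Q) (hR : RSW Q) (hS : Vale.Agent.P167.H192.Q.SRSW Q)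
    (t : Fin 3 → ℝ) {K : ℤ} (hK : 1 ≤ K) : NREDQ Q t K :=
  nredq_rel hQ hR hS (QM.rel_fin hQ hR) t hK

/-- **Q-NRED** for `√q = 2 cos μ`, `π / 3 < μ < π / 2`. -/
theorem nredq_cos {μ : ℝ} (_h0 : 0 < μ) (h1 : Ang μ) (t : Fin 3 → ℝ) {K : ℤ}
    (hK : 1 ≤ K) : NREDQ (2 * Real.cos μ) t K :=
  nredq h1.kit h1.kit.rsw h1.kit.srsw t hK

end Vale.Agent.P167.N.H365.NQ
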